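import Vale.Agent.P305.H794.Stage3

/-! The common form: one bipartite call and at most `searchNum G + 1` searches. -/

set_option autoImplicit false
set_option linter.all false

namespace Vale.Agent.P305

open Function (update)
open L1

/-- The search number `x(G)`. Over the half-integral vertex covers `y / 2` of smallest weight
(equal to the fractional matching number `ν_f`) and the vertex covers `S`, the smallest value of
`⌊(min (oddPackingOn G {y = 1}) (2 (|S| - ν_f)) - 2 (ν_f - ν)) / 2⌋`. -/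
noncomputable def searchNum {n : ℕ} (G : SimpleGraph (Fin n)) : ℕ :=
  sInf {k | ∃ (y : Fin n → ℕ) (S : Set (Fin n)), IsMinHalfCover G y ∧ G.IsVertexCover S ∧
    k = (min (oddPackingOn G {v | y v = 1}) (2 * S.ncard - ∑ v, y v) -
      (∑ v, y v - 2 * matchNum G)) / 2}

theorem searchNum_mem {n : ℕ} (G : SimpleGraph (Fin n)) :
    ∃ (y : Fin n → ℕ) (S : Set (Fin n)), IsMinHalfCover G y ∧ G.IsVertexCover S ∧
    searchNum G = (min (oddPackingOn G {v | y v = 1}) (2 * S.ncard - ∑ v, y v) -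
      (∑ v, y v - 2 * matchNum G)) / 2 := by
  obtain ⟨y, hy⟩ := exists_minHalfCover G
  exact Nat.sInf_mem (s := {k | ∃ (y : Fin n → ℕ) (S : Set (Fin n)), IsMinHalfCover G y ∧
    G.IsVertexCover S ∧ k = (min (oddPackingOn G {v | y v = 1}) (2 * S.ncard - ∑ v, y v) -
      (∑ v, y v - 2 * matchNum G)) / 2}) ⟨_, y, Set.univ, hy, by simp, rfl⟩

theorem searchNum_le_of {n : ℕ} {G : SimpleGraph (Fin n)} {y : Fin n → ℕ} {S : Set (Fin n)}
    (hy : IsMinHalfCover G y) (hS : G.IsVertexCover S) :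
    searchNum G ≤ (min (oddPackingOn G {v | y v = 1}) (2 * S.ncard - ∑ v, y v) -
      (∑ v, y v - 2 * matchNum G)) / 2 :=
  Nat.sInf_le ⟨y, S, hy, hS, rfl⟩

/-- Twice the search number is at most the excess. -/
theorem searchNum_le_excess {n : ℕ} (G : SimpleGraph (Fin n)) :
    2 * searchNum G ≤ excess G := by
  obtain ⟨y, hy, he⟩ := excess_mem G
  have h1 := searchNum_le_of (S := Set.univ) hy (by simp)
  omega

/-- Twice the search number is at most the induced odd cycle packing number. -/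
theorem searchNum_le_oddPacking {n : ℕ} (G : SimpleGraph (Fin n)) :
    2 * searchNum G ≤ oddPacking G := (searchNum_le_excess G).trans (excess_le_oddPacking G)

/-- The search number is at most `|S| - |M|` for every vertex cover `S` and matching `M`. -/
theorem searchNum_le_cover {n : ℕ} {G : SimpleGraph (Fin n)} {S : Set (Fin n)} {M : G.Subgraph}
    (hS : G.IsVertexCover S) (hM : M.IsMatching) :
    searchNum G ≤ S.ncard - M.edgeSet.ncard := by
  obtain ⟨y, hy⟩ := exists_minHalfCover G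
  have h1 := searchNum_le_of hy hS
  have h2 := le_matchNum hM
  obtain ⟨M0, hM0, hM0c⟩ := exists_matchNum G
  have h6 := two_matching_le hM0 hy.1
  rw [hM0c] at h6
  omega

theorem searchNum_le {n : ℕ} (G : SimpleGraph (Fin n)) : searchNum G ≤ n := by
  have h1 := searchNum_le_excess G
  have h2 := excess_le G
  omega

theorem S1Res2.gap3 {n : ℕ} {G : SimpleGraph (Fin n)} {m C : ℕ → ℕ} {F : Finset ℕ} {N : ℕ}
    (h : S1Res2 n (natAdj G) m C F N)
    (hX : ∀ X : Finset ℕ, X ⊆ Finset.range n → (∀ u v, natAdj G u v → u ∈ X ∨ v ∈ X) →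
      F.card + n ≤ 2 * X.card + N) :
    ∀ m', Mat (natAdj G) m' →
      (exposed n m).card ≤ (exposed n m').card + (2 * searchNum G + 1) := by
  classical
  intro m' hm'
  obtain ⟨y, S, hy, hS, he⟩ := searchNum_mem G
  -- the weight of `y`
  obtain ⟨y0, hy0, hs0⟩ := h.cov
  have h1 := h.dual _ (extC_hc hy.1)
  have h2 := hy.2 _ (resC_hc hy0)
  rw [resC_sum] at h2
  rw [extC_sum] at h1
  have hsum : ∑ v, y v + N = n := by omega
  -- the packing
  have hF : F.card ≤ oddPackingOn G {v | y v = 1} := by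
    obtain ⟨e⟩ : Nonempty (Fin F.card ≃ F) := ⟨F.equivFin.symm⟩
    refine le_oddPackingOn (S := fun i => {v : Fin n | C v = (e i : ℕ) ∧ y v = 1}) ⟨?_, ?_⟩
      (fun i v hv => hv.2)
    · intro i hb
      apply h.odd (e i) (e i).2 _ (extC_hc hy.1) (by rw [extC_sum]; exact hsum)
      obtain ⟨col⟩ := hb
      refine ⟨fun v => if hv : ∃ hn : v < n, C v = (e i : ℕ) ∧ y ⟨v, hn⟩ = 1 then
        decide (col ⟨⟨v, hv.choose⟩, hv.choose_spec⟩ = 0) else false, ?_⟩
      intro u v hu hv huv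
      obtain ⟨hun, hvn, hadj⟩ := huv
      have hu' : ∃ hn : u < n, C u = (e i : ℕ) ∧ y ⟨u, hn⟩ = 1 := by
        refine ⟨hun, hu.2.1, ?_⟩
        have := hu.2.2
        unfold extC at this
        rwa [dif_pos hun] at this
      have hv' : ∃ hn : v < n, C v = (e i : ℕ) ∧ y ⟨v, hn⟩ = 1 := by
        refine ⟨hvn, hv.2.1, ?_⟩
        have := hv.2.2
        unfold extC at this
        rwa [dif_pos hvn] at this
      beta_reduce
      rw [dif_pos hu', dif_pos hv']
      have hne := col.valid (v := ⟨⟨u, hu'.choose⟩, hu'.choose_spec⟩)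
        (w := ⟨⟨v, hv'.choose⟩, hv'.choose_spec⟩) (by
        simpa [SimpleGraph.comap_adj] using hadj)
      intro heq
      apply hne
      rw [decide_eq_decide] at heq
      generalize col ⟨⟨u, hu'.choose⟩, hu'.choose_spec⟩ = a at *
      generalize col ⟨⟨v, hv'.choose⟩, hv'.choose_spec⟩ = b at *
      revert a b
      decide
    · intro i j hij u hu v hv
      have hu' : C u = (e i : ℕ) := hu.1
      have hv' : C v = (e j : ℕ) := hv.1
      have hne : (e i : ℕ) ≠ e j := fun h => hij (e.injective (Subtype.ext h))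
      refine ⟨?_, ?_⟩
      · rintro rfl
        exact hne (hu'.symm.trans hv')
      · intro hadj
        have := h.apart u v ⟨u.2, v.2, by simpa using hadj⟩ (by rw [hu']; exact (e i).2)
          (by rw [hv']; exact (e j).2)
        exact hne (hu'.symm.trans (this.trans hv'))
  have hSc : F.card + n ≤ 2 * S.ncard + N := by
    have := hX (S.toFinset.map Fin.valEmbedding) (by
      intro v hv
      rw [Finset.mem_map] at hv
      obtain ⟨u, _, rfl⟩ := hv
      exact Finset.mem_range.2 u.2) (by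
      rintro u v ⟨hu, hv, huv⟩
      rcases hS huv with h2 | h2
      · left
        rw [Finset.mem_map]
        exact ⟨_, Set.mem_toFinset.2 h2, rfl⟩
      · right
        rw [Finset.mem_map]
        exact ⟨_, Set.mem_toFinset.2 h2, rfl⟩)
    rwa [Finset.card_map, ← Set.ncard_eq_toFinset_card'] at this
  have h3 := h.card
  have h4 := exposed_ge hm'
  have h5 := h.low m' hm'
  obtain ⟨M0, hM0, hM0c⟩ := exists_matchNum G
  have h6 := two_matching_le hM0 hy.1
  rw [hM0c] at h6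
  omega

theorem com_run {n : ℕ} (G : SimpleGraph (Fin n)) (L : AdjLists G)
    {R : List ℕ → (ℕ → ℕ) → ℕ → Prop} {cap τ : ℕ}
    (hcap : 2 * n + 4 * G.edgeSet.ncard + 2 ≤ cap)
    (hR : ∀ (n' : ℕ) (H : SimpleGraph (Fin n')) (L' : AdjLists H), H.IsBipartite →
      (n' = 2 * n ∧ H.edgeSet.ncard ≤ 2 * G.edgeSet.ncard) →
        ∃ (out : ℕ → ℕ) (t : ℕ) (M : H.Subgraph), R L'.encode out t ∧ t ≤ τ ∧
          IsMaximumMatching H M ∧ Represents out M) :
    ∃ (t : ℕ) (s : St) (M : G.Subgraph), Ex R cap oddC (St.init L.encode) t s ∧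
      t ≤ 2200 * ((searchNum G + 1) * ((Nat.log 2 n + 1) * (n + G.edgeSet.ncard + 1))) +
        1 * τ ∧ IsMaximumMatching G M ∧ Represents (s.a 3) M := by
  set m := G.edgeSet.ncard with hm
  set Λ := Nat.log 2 n + 1 with hΛ
  have hG := natAdj_gr G
  have hinit : ∀ j i, (St.init L.encode).a j i = if j = 0 then L.encode.getD i 0 else 0 :=
    fun j i => rfl
  have hoffn : L.encode.getD (n + 1) 0 = 2 * m := by rw [L.encode_off le_rfl, L.upTo_length]
  obtain ⟨s1, t1, e1, ht1, r10, r11, o1, a1, j1⟩ := unpack_spec (R := R) (cap := cap)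
    (St.init L.encode) n (2 * m) (by rw [hinit, if_pos rfl, L.encode_zero])
    (by rw [hinit, if_pos rfl, hoffn])
  have hn : s1.a 4 n = 2 * m := by rw [o1 n le_rfl, hinit, if_pos rfl, hoffn]
  have hC : CSR n (natAdj G) (s1.a 4) (s1.a 5) := by
    refine csr_of_encode L (fun i hi => ?_) (fun p hp => ?_)
    · rw [o1 i hi, hinit, if_pos rfl]
    · rw [a1 p (by omega), hinit, if_pos rfl]
  have q1 : s1.a 1 = fun _ => 0 := by
    rw [j1 1 (by decide) (by decide)]
    funext i
    rw [hinit, if_neg (by decide)]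
  obtain ⟨s2, t2, m1, C, F, N, e2, ht2, hS, hSX, h40, r20, r21, h45⟩ := stage1_spec3 (R := R) (cap := cap)
    (n := n) (A := natAdj G) s1 (τ := τ)
    (by
      intro H L' hH hlen
      refine hR _ H L' hH ⟨rfl, ?_⟩
      rw [hn, L'.upTo_length] at hlen
      omega)
    hG hC r10 r11 (by rw [q1]; intro i _; rfl) (by rw [q1]; simp [encLen]; (clear * - r10 hn; omega))
    (by rw [hn]; omega)
  obtain ⟨s3, t3, f, e3, ht3, hmax, f40, r30, r31⟩ := augLoop_spec (R := R) (cap := cap)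
    (g := 2 * searchNum G + 1) hG s2 (by rw [h45 4 (by decide), h45 5 (by decide)]; exact hC) r20 r21 hS.mat
    (hS.gap3 hSX) h40
  obtain ⟨s4, t4, e4, ht4, a43⟩ := cOut_spec (R := R) (cap := cap) s3 r30
  obtain ⟨M, hM, hrep⟩ := maximum_of_isMax (f := s4.a 3) hmax (by
    intro v hv
    rw [a43 v hv, f40 v hv])
  refine ⟨_, s4, M, .seq e1 (.seq e2 (.seq e3 e4)), ?_, hM, hrep⟩
  -- the time
  rw [h45 4 (by decide), hn, ← hΛ] at ht3
  rw [hn] at ht2
  set X := Λ * (n + m + 1) with hX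
  set k := searchNum G with hk
  have x1 : n + m + 1 ≤ X := Nat.le_mul_of_pos_left _ (by omega)
  have x2 : X ≤ (k + 1) * X := Nat.le_mul_of_pos_left _ (by omega)
  have x3 : (2 * k + 1 + 1) * (300 * (Λ * (n + 2 * m + 1))) ≤ 1200 * ((k + 1) * X) := by
    calc (2 * k + 1 + 1) * (300 * (Λ * (n + 2 * m + 1))) ≤
        (2 * k + 1 + 1) * (300 * (Λ * (2 * (n + m + 1)))) := by
          apply Nat.mul_le_mul (by omega)
          apply Nat.mul_le_mul_left
          apply Nat.mul_le_mul_left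
          (clear * - r10 r20 r30; omega)
      _ = 1200 * ((k + 1) * X) := by rw [hX]; ring
  rw [one_mul]
  omega


/-- Maximum matching in time governed by the search number. -/
theorem common_reduction (T : ℕ → ℕ → ℕ)
    (hT : ∀ n n' m m', n ≤ n' → m ≤ m' → T n m ≤ T n' m')
    (hP : ∃ P, Solves P (fun _ G => G.IsBipartite) (fun n G => T n G.edgeSet.ncard)) :
    ∃ P C, Solves P (fun _ _ => True) (fun n G =>
      C * (T (2 * n) (2 * G.edgeSet.ncard) +
        (searchNum G + 1) * ((Nat.log 2 n + 1) * (n + G.edgeSet.ncard + 1)))) := by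
  obtain ⟨P, hP⟩ := hP
  obtain ⟨k0, hk0⟩ : ∃ k0, 2200 ≤ 2 ^ k0 := ⟨12, by norm_num⟩
  have hlog : ∀ n m, Nat.log 2 n + 1 ≤ n + m + 2 := by
    intro n m
    have := Nat.log_le_self 2 n
    omega
  have hpow : ∀ N, 2 ≤ N → 2200 * N ^ 3 ≤ N ^ (k0 + 3) := by
    intro N hN
    rw [pow_add]
    apply Nat.mul_le_mul_right
    exact hk0.trans (Nat.pow_le_pow_left hN k0)
  have hA : ∀ (n : ℕ) (G : SimpleGraph (Fin n)),
      2200 * ((searchNum G + 1) * ((Nat.log 2 n + 1) * (n + G.edgeSet.ncard + 1))) ≤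
        (n + G.edgeSet.ncard + 2) ^ (k0 + 3) := by
    intro n G
    refine le_trans (Nat.mul_le_mul_left _ ?_) (hpow _ (by omega))
    have h1 := searchNum_le G
    have h2 := hlog n G.edgeSet.ncard
    obtain ⟨N, hN⟩ : ∃ N, N = n + G.edgeSet.ncard + 2 := ⟨_, rfl⟩
    rw [← hN] at h2 ⊢
    have h3 : (searchNum G + 1) * ((Nat.log 2 n + 1) * (n + G.edgeSet.ncard + 1)) ≤
        N * (N * N) := Nat.mul_le_mul (by omega) (Nat.mul_le_mul h2 (by omega))
    have h4 : N * (N * N) = N ^ 3 := by ring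
    omega
  have hC : ∀ (n : ℕ) (G : SimpleGraph (Fin n)),
      2 * n + 4 * G.edgeSet.ncard + 2 ≤ (n + G.edgeSet.ncard + 2) ^ (k0 + 3) := by
    intro n G
    refine le_trans ?_ (hpow _ (by omega))
    obtain ⟨N, hN⟩ : ∃ N, N = n + G.edgeSet.ncard + 2 := ⟨_, rfl⟩
    rw [← hN]
    have h4 : N * 1 ≤ N * (N * N) :=
      Nat.mul_le_mul_left _ (Nat.mul_pos (by omega) (by omega))
    have h5 : N * (N * N) = N ^ 3 := by ring
    omega
  have hsz : ∀ (n : ℕ) (G : SimpleGraph (Fin n)), True → ∀ (n' : ℕ) (H : SimpleGraph (Fin n')),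
      H.IsBipartite → (n' = 2 * n ∧ H.edgeSet.ncard ≤ 2 * G.edgeSet.ncard) →
      n' + H.edgeSet.ncard + 2 ≤ (n + G.edgeSet.ncard + 2) ^ 2 ∧
        T n' H.edgeSet.ncard ≤ T (2 * n) (2 * G.edgeSet.ncard) := by
    rintro n G - n' H - ⟨h1, h2⟩
    refine ⟨?_, hT _ _ _ _ h1.le h2⟩
    obtain ⟨N, hN⟩ : ∃ N, N = n + G.edgeSet.ncard + 2 := ⟨_, rfl⟩
    rw [← hN, pow_two]
    have h4 : 2 * N ≤ N * N := Nat.mul_le_mul_right _ (by omega)
    omega
  obtain ⟨P', C, k, hk⟩ := solves_of_L1 (CG := fun _ _ => True) hP (K := 64) (by decide)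
    oddC (cst := 4) oddC_ok (k0 + 3) 2
    (fun n G n' H => n' = 2 * n ∧ H.edgeSet.ncard ≤ 2 * G.edgeSet.ncard)
    (fun n G => T (2 * n) (2 * G.edgeSet.ncard))
    (fun n G => 2200 * ((searchNum G + 1) * ((Nat.log 2 n + 1) * (n + G.edgeSet.ncard + 1))))
    (fun _ _ => 1) hsz (fun n G _ => hA n G)
    (fun n G _ L R τ hR => com_run G L (hC n G) hR)
  refine ⟨P', 2201 * C, k, fun n G hG L => ?_⟩
  obtain ⟨t, s, M, e, ht, hM, hr⟩ := hk n G hG L
  refine ⟨t, s, M, e, ht.trans ?_, hM, hr⟩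
  beta_reduce
  set Λ := Nat.log 2 n + 1 with hΛ
  set m := G.edgeSet.ncard with hm
  set Y := T (2 * n) (2 * m) with hY
  set X := (searchNum G + 1) * (Λ * (n + m + 1)) with hX
  have y1 : n + m + 1 ≤ X :=
    le_trans (Nat.le_mul_of_pos_left _ (by omega)) (Nat.le_mul_of_pos_left _ (by omega))
  calc C * (2200 * X + 1 * Y + n + m + 1) ≤ C * (2201 * (Y + X)) :=
        Nat.mul_le_mul_left _ (by omega)
    _ = 2201 * C * (Y + X) := by ring

/-- Almost-linear time when the search number is subpolynomial. -/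
theorem common_almostLinear (hB : AlmostLinear fun _ G => G.IsBipartite) (κ : ℕ → ℕ)
    (hκ : ∀ ε : ℝ, 0 < ε → ∃ c : ℝ, ∀ N : ℕ, (κ N : ℝ) ≤ c * ((N : ℝ) + 1) ^ ε) :
    AlmostLinear fun n G => searchNum G ≤ κ (n + G.edgeSet.ncard) := by
  obtain ⟨P, T, hP, hT⟩ := hB
  set Tb : ℕ → ℕ := fun N => (Finset.range (N + 1)).sup T with hTb
  have hle : ∀ N, T N ≤ Tb N := fun N =>
    Finset.le_sup (f := T) (Finset.mem_range.2 (Nat.lt_succ_self N))
  have hmono : ∀ N N', N ≤ N' → Tb N ≤ Tb N' := by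
    intro N N' hN
    apply Finset.sup_mono
    intro x hx
    rw [Finset.mem_range] at hx ⊢
    omega
  have hTb' : ∀ ε : ℝ, 0 < ε → ∃ c : ℝ, 0 ≤ c ∧ ∀ N : ℕ,
      (Tb N : ℝ) ≤ c * ((N : ℝ) + 1) ^ (1 + ε) := by
    intro ε hε
    obtain ⟨c, hc⟩ := hT ε hε
    have hc0 : 0 ≤ c := by
      have := hc 0
      simp only [Nat.cast_zero, zero_add, Real.one_rpow, mul_one] at this
      exact (Nat.cast_nonneg _).trans this
    refine ⟨c, hc0, fun N => ?_⟩
    obtain ⟨k, hk, hk'⟩ : ∃ k ∈ Finset.range (N + 1), (Finset.range (N + 1)).sup T = T k :=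
      Finset.exists_mem_eq_sup _ ⟨0, by simp only [Finset.mem_range, lt_add_iff_pos_left, Order.lt_add_one_iff, zero_le]⟩ T
    show (((Finset.range (N + 1)).sup T : ℕ) : ℝ) ≤ _
    rw [hk']
    refine (hc k).trans (mul_le_mul_of_nonneg_left ?_ hc0)
    apply Real.rpow_le_rpow (by (clear * -; positivity)) _ (by (clear * - hε; linarith))
    rw [Finset.mem_range] at hk
    have : (k : ℝ) ≤ N := by exact_mod_cast (by omega : k ≤ N)
    linarith only [this]
  obtain ⟨P', C, hP'⟩ := common_reduction (fun n m => Tb (n + m))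
    (fun n n' m m' h1 h2 => hmono _ _ (by omega))
    ⟨P, hP.mono (fun _ _ h => h) fun n G _ => hle _⟩
  refine ⟨P', fun N => C * (Tb (2 * N) + (κ N + 1) * ((Nat.log 2 N + 1) * (N + 1))),
    hP'.mono (fun _ _ _ => trivial) ?_, ?_⟩
  · intro n G hG
    beta_reduce
    have h1 : Nat.log 2 n ≤ Nat.log 2 (n + G.edgeSet.ncard) := Nat.log_mono_right (by omega)
    apply Nat.mul_le_mul_left
    apply Nat.add_le_add
    · exact hmono _ _ (by omega)
    · exact Nat.mul_le_mul (by omega) (Nat.mul_le_mul (by omega) le_rfl)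
  · intro ε hε
    obtain ⟨c1, hc1, h1⟩ := nlog_bound (δ := ε / 2) (by linarith only [hε])
    obtain ⟨c2, hc2, h2⟩ := hTb' ε hε
    obtain ⟨c3, h3⟩ := hκ (ε / 2) (by linarith)
    have hc3 : 0 ≤ c3 := by
      have := h3 0
      simp only [Nat.cast_zero, zero_add, Real.one_rpow, mul_one] at this
      exact (Nat.cast_nonneg _).trans this
    refine ⟨C * (c2 * 2 ^ (1 + ε) + (c3 + 1) * c1), fun N => ?_⟩
    have hN : (0 : ℝ) ≤ N := Nat.cast_nonneg N
    have hN1 : (0 : ℝ) < (N : ℝ) + 1 := by linarith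
    set x : ℝ := (N : ℝ) + 1 with hx
    have g1 := h1 N
    have g3 := h3 N
    have g2 : (Tb (2 * N) : ℝ) ≤ c2 * 2 ^ (1 + ε) * x ^ (1 + ε) := by
      refine (h2 (2 * N)).trans ?_
      rw [mul_assoc, ← Real.mul_rpow (by norm_num) hN1.le]
      apply mul_le_mul_of_nonneg_left _ hc2
      apply Real.rpow_le_rpow (by (clear * -; positivity)) _ (by linarith only [hε])
      push_cast
      rw [hx]
      linarith only []
    have p1 : (0 : ℝ) ≤ x ^ (ε / 2) := Real.rpow_nonneg hN1.le _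
    have p3 : (1 : ℝ) ≤ x ^ (ε / 2) := Real.one_le_rpow (by linarith) (by linarith only [hε])
    have g4 : (κ N : ℝ) + 1 ≤ (c3 + 1) * x ^ (ε / 2) := by
      rw [add_mul, one_mul]; linarith only [g3, p3]
    have e1 : x ^ (ε / 2) * (x ^ (ε / 2) * x) = x ^ (1 + ε) := by
      rw [← mul_assoc, ← Real.rpow_add hN1, ← Real.rpow_add_one hN1.ne']
      congr 1
      ring
    push_cast
    rw [mul_assoc]
    apply mul_le_mul_of_nonneg_left _ (Nat.cast_nonneg _)
    have q2 : ((κ N : ℝ) + 1) * (((Nat.log 2 N : ℝ) + 1) * x) ≤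
        (c3 + 1) * c1 * x ^ (1 + ε) := by
      calc ((κ N : ℝ) + 1) * (((Nat.log 2 N : ℝ) + 1) * x) ≤
          ((c3 + 1) * x ^ (ε / 2)) * ((c1 * x ^ (ε / 2)) * x) := by
            apply mul_le_mul g4 _ (by (clear * -; positivity)) (by (clear * - hc3; positivity))
            exact mul_le_mul_of_nonneg_right g1 hN1.le
        _ = (c3 + 1) * c1 * (x ^ (ε / 2) * (x ^ (ε / 2) * x)) := by ring
        _ = _ := by rw [e1]
    rw [add_mul (c2 * 2 ^ (1 + ε))]
    exact add_le_add g2 q2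



end Vale.Agent.P305
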