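import Vale.Agent.P305.OddDefs

/-! Half-integral vertex covers and the excess of a graph. -/

set_option autoImplicit false

namespace Vale.Agent.P305

/-- `y / 2` is a half-integral vertex cover of `G`: every edge `uv` has `y u / 2 + y v / 2 ≥ 1`. -/
def IsHalfCover {n : ℕ} (G : SimpleGraph (Fin n)) (y : Fin n → ℕ) : Prop :=
  ∀ u v, G.Adj u v → 2 ≤ y u + y v

/-- `y / 2` is a half-integral vertex cover of smallest weight. Its weight `(∑ v, y v) / 2` is the
fractional vertex cover number of `G`, which is the fractional matching number. -/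
def IsMinHalfCover {n : ℕ} (G : SimpleGraph (Fin n)) (y : Fin n → ℕ) : Prop :=
  IsHalfCover G y ∧ ∀ z, IsHalfCover G z → ∑ v, y v ≤ ∑ v, z v

/-- The induced odd cycle packing number of the subgraph induced by `U`. -/
noncomputable def oddPackingOn {n : ℕ} (G : SimpleGraph (Fin n)) (U : Set (Fin n)) : ℕ :=
  sSup {k | ∃ S : Fin k → Set (Fin n), IsOddPacking G k S ∧ ∀ i, S i ⊆ U}

/-- The matching number. -/
noncomputable def matchNum {n : ℕ} (G : SimpleGraph (Fin n)) : ℕ :=
  sSup {k | ∃ M : G.Subgraph, M.IsMatching ∧ M.edgeSet.ncard = k}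

/-- The excess: the smallest value, over the half-integral vertex covers `y / 2` of smallest
weight, of `oddPackingOn G {y / 2 = 1 / 2}` minus twice the difference of the fractional matching
number `(∑ v, y v) / 2` and the matching number. -/
noncomputable def excess {n : ℕ} (G : SimpleGraph (Fin n)) : ℕ :=
  sInf {k | ∃ y, IsMinHalfCover G y ∧
    k = oddPackingOn G {v | y v = 1} - (∑ v, y v - 2 * matchNum G)}

end Vale.Agent.P305
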