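import Vale.Agent.P305.H607.Defs
import Vale.Agent.P305.H794.Defs
import Mathlib.Combinatorics.SimpleGraph.VertexCover

/-! The search number of a graph. -/

set_option autoImplicit false

namespace Vale.Agent.P305

variable {n : ℕ}

/-- The search number, component by component: over the half-integral vertex covers `y / 2` of
smallest weight and the vertex covers `S`, the smallest sum over the components `K` of
`⌊(min (p(K ∩ {y = 1})) (2 |S ∩ K| - 2 ν_f(K)) + 2 ν(K) - 2 ν_f(K)) / 2⌋`. -/
noncomputable def searches (G : SimpleGraph (Fin n)) : ℕ :=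
  open Classical in
  sInf {k | ∃ (y : Fin n → ℕ) (S : Set (Fin n)), IsMinHalfCover G y ∧ G.IsVertexCover S ∧
    k = ∑ K : G.ConnectedComponent, (min (oddPackingIn G (K.supp ∩ {v | y v = 1}))
      (2 * (S ∩ K.supp).ncard - assignedIn G K.supp) +
      matchedIn G K.supp - assignedIn G K.supp) / 2}

end Vale.Agent.P305
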