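import Vale.Agent.P305.H794.CompStage
import Vale.Agent.P305.H794.SearchDefs

/-! The common form, component by component. -/

set_option autoImplicit false
set_option linter.all false

namespace Vale.Agent.P305

open Function (update)
open L1

/-- `cover_bound` inside a set closed under adjacency. -/
theorem cover_bound_in {n : ℕ} {A : ℕ → ℕ → Prop} {g C : ℕ → ℕ} (hA : PI n A g)
    {W : Finset ℕ} (hW : W ⊆ Finset.range n) (hcl : ∀ v ∈ W, ∀ w, A v w → w ∈ W)
    {X : Finset ℕ} (hcov : ∀ u v, A u v → u ∈ X ∨ v ∈ X) (F : Finset ℕ)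
    (hwalk : ∀ c ∈ F, ∃ s k, k % 2 = 1 ∧
      (∀ i ≤ k, wf n g s i < n ∧ C (wf n g s i) = c) ∧
      (∀ i < k, A (wf n g s i) (wf n g s (i + 1))) ∧ wf n g s k = wf n g s 0)
    (hFW : ∀ c ∈ F, ∀ v < n, C v = c → v ∈ W)
    (hfull : ∀ v < n, C v ∈ F → g v ≠ v) :
    F.card + W.card ≤ 2 * (X ∩ W).card + (W.filter (fun v => g v = v)).card := by
  classical
  obtain ⟨dom, hdom⟩ : ∃ dom, dom = W.filter (fun v => ¬ g v = v) := ⟨_, rfl⟩
  have hvW : ∀ v ∈ dom, v ∈ W := by
    intro v hv
    rw [hdom, Finset.mem_filter] at hv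
    exact hv.1
  have hvn : ∀ v ∈ dom, v < n := fun v hv => Finset.mem_range.1 (hW (hvW v hv))
  have hsucc : ∀ v ∈ dom, g v - n < n ∧ A v (g v - n) ∧ g v = n + (g v - n) := by
    intro v hv
    have hvn' := hvn v hv
    rw [hdom, Finset.mem_filter] at hv
    rcases hA.out v hvn' with h | ⟨w, hw, e, e2⟩
    · exact absurd h hv.2
    · have : g v - n = w := by omega
      rw [this]
      exact ⟨hw, e2, e⟩
  -- arcs starting in `X`
  have c1 : (dom.filter (fun v => v ∈ X)).card ≤ (X ∩ W).card := by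
    apply Finset.card_le_card
    intro v hv
    rw [Finset.mem_filter] at hv
    exact Finset.mem_inter.2 ⟨hv.2, hvW v hv.1⟩
  -- arcs ending in `X`
  have c2 : (dom.filter (fun v => g v - n ∈ X)).card ≤ (X ∩ W).card := by
    apply Finset.card_le_card_of_injOn (fun v => g v - n)
    · intro v hv
      have hv' := Finset.mem_filter.1 (Finset.mem_coe.1 hv)
      exact Finset.mem_coe.2 (Finset.mem_inter.2
        ⟨hv'.2, hcl v (hvW v hv'.1) _ (hsucc v hv'.1).2.1⟩)
    · intro v hv w hw e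
      have hv' := Finset.mem_coe.1 hv
      have hw' := Finset.mem_coe.1 hw
      rw [Finset.mem_filter] at hv' hw'
      obtain ⟨v1, v2, v3⟩ := hsucc v hv'.1
      obtain ⟨w1, w2, w3⟩ := hsucc w hw'.1
      have e' : g v - n = g w - n := e
      rw [← e'] at w3
      exact PI.eq_arc hA (hvn v hv'.1) (hvn w hw'.1) v1 v3 w3
  -- every arc starts or ends in `X`
  have c3 : (dom.filter (fun v => v ∈ X ∨ g v - n ∈ X)).card = dom.card := by
    rw [Finset.filter_true_of_mem]
    intro v hv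
    exact hcov _ _ (hsucc v hv).2.1
  have c4 : (dom.filter (fun v => v ∈ X)).card + (dom.filter (fun v => g v - n ∈ X)).card =
      (dom.filter (fun v => v ∈ X ∨ g v - n ∈ X)).card +
      (dom.filter (fun v => v ∈ X ∧ g v - n ∈ X)).card := by
    rw [Finset.filter_or, Finset.filter_and, Finset.card_union_add_card_inter]
  -- every odd cycle has an arc inside `X`
  have c5 : F.card ≤ (dom.filter (fun v => v ∈ X ∧ g v - n ∈ X)).card := by
    refine le_trans (Finset.card_le_card (t := (dom.filter (fun v => v ∈ X ∧ g v - n ∈ X)).image C)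
      ?_) Finset.card_image_le
    intro c hc
    obtain ⟨s, k, hk, w1, w2, w3⟩ := hwalk c hc
    by_contra hno
    have hodd := oddSet_of_walk (A := fun u v => ¬ (u ∈ X ∧ v ∈ X) ∧ (u ∈ X ∨ v ∈ X))
      (S := fun _ => True) (wf n g s) hk (fun _ _ => trivial) (fun i hi => by
        refine ⟨fun hboth => hno ?_, hcov _ _ (w2 i hi)⟩
        rw [Finset.mem_image]
        refine ⟨wf n g s i, ?_, (w1 i hi.le).2⟩
        rw [Finset.mem_filter, hdom, Finset.mem_filter]
        refine ⟨⟨hFW c hc _ (w1 i hi.le).1 (w1 i hi.le).2,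
          hfull _ (w1 i hi.le).1 (by rw [(w1 i hi.le).2]; exact hc)⟩, hboth.1, ?_⟩
        have := hboth.2
        rw [wf_succ] at this
        exact this) w3
    apply hodd
    refine ⟨fun v => decide (v ∈ X), ?_⟩
    intro u v _ _ huv heq
    rw [decide_eq_decide] at heq
    tauto
  have c6 := Finset.card_filter_add_card_filter_not (s := W) (fun v => g v = v)
  rw [← hdom] at c6
  omega

section comp

variable {n : ℕ}

theorem sum_inst {α : Type} (i j : Fintype α) (f : α → ℕ) :
    @Finset.sum α ℕ _ (@Finset.univ α i) f = @Finset.sum α ℕ _ (@Finset.univ α j) f := by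
  rw [Subsingleton.elim i j]

theorem searches_eq (G : SimpleGraph (Fin n)) [Fintype G.ConnectedComponent] :
    searches G = sInf {k | ∃ (y : Fin n → ℕ) (S : Set (Fin n)), IsMinHalfCover G y ∧
    G.IsVertexCover S ∧ k = ∑ K : G.ConnectedComponent,
      (min (oddPackingIn G (K.supp ∩ {v | y v = 1}))
      (2 * (S ∩ K.supp).ncard - assignedIn G K.supp) +
      matchedIn G K.supp - assignedIn G K.supp) / 2} := by
  unfold searches
  refine congrArg sInf (Set.ext fun k => ?_)
  exact exists_congr fun y => exists_congr fun S => and_congr_right fun _ =>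
    and_congr_right fun _ => ⟨fun h => h.trans (sum_inst _ _ _), fun h => h.trans (sum_inst _ _ _)⟩

theorem searches_mem (G : SimpleGraph (Fin n)) [Fintype G.ConnectedComponent] :
    ∃ (y : Fin n → ℕ) (S : Set (Fin n)), IsMinHalfCover G y ∧ G.IsVertexCover S ∧
    searches G = ∑ K : G.ConnectedComponent, (min (oddPackingIn G (K.supp ∩ {v | y v = 1}))
      (2 * (S ∩ K.supp).ncard - assignedIn G K.supp) +
      matchedIn G K.supp - assignedIn G K.supp) / 2 := by
  obtain ⟨y, hy⟩ := exists_minHalfCover G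
  have hne : Set.Nonempty {k | ∃ (y : Fin n → ℕ) (S : Set (Fin n)), IsMinHalfCover G y ∧
    G.IsVertexCover S ∧ k = ∑ K : G.ConnectedComponent,
      (min (oddPackingIn G (K.supp ∩ {v | y v = 1}))
      (2 * (S ∩ K.supp).ncard - assignedIn G K.supp) +
      matchedIn G K.supp - assignedIn G K.supp) / 2} :=
    ⟨_, y, Set.univ, hy, by simp, rfl⟩
  rw [searches_eq]
  exact Nat.sInf_mem hne

theorem searches_le_of {G : SimpleGraph (Fin n)} [Fintype G.ConnectedComponent] {y : Fin n → ℕ}
    {S : Set (Fin n)} (hy : IsMinHalfCover G y) (hS : G.IsVertexCover S) :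
    searches G ≤ ∑ K : G.ConnectedComponent, (min (oddPackingIn G (K.supp ∩ {v | y v = 1}))
      (2 * (S ∩ K.supp).ncard - assignedIn G K.supp) +
      matchedIn G K.supp - assignedIn G K.supp) / 2 := by
  rw [searches_eq]
  exact Nat.sInf_le ⟨y, S, hy, hS, rfl⟩

theorem oddPackingIn_mono (G : SimpleGraph (Fin n)) {X Y : Set (Fin n)} (h : X ⊆ Y) :
    oddPackingIn G X ≤ oddPackingIn G Y := by
  obtain ⟨S, h1, h2⟩ := exists_oddPackingIn G X
  exact le_oddPackingIn (fun i => (h1 i).trans h) h2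

/-- At most the surplus. -/
theorem searches_le_surplus (G : SimpleGraph (Fin n)) : searches G ≤ surplus G := by
  classical
  obtain ⟨y, hy⟩ := exists_minHalfCover G
  refine (searches_le_of (S := Set.univ) hy (by simp)).trans ?_
  unfold surplus
  refine le_trans (Finset.sum_le_sum (g := fun K : G.ConnectedComponent =>
    (oddPackingIn G K.supp + matchedIn G K.supp - assignedIn G K.supp) / 2) ?_) (le_of_eq ?_)
  · intro K _
    have := oddPackingIn_mono G (X := K.supp ∩ {v | y v = 1}) (Y := K.supp) Set.inter_subset_left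
    omega
  · convert rfl

/-- The weight of a smallest half-integral vertex cover. -/
theorem S1W.weight {G : SimpleGraph (Fin n)} {m C g D : ℕ → ℕ} {F : Finset ℕ}
    (h : S1W n (natAdj G) m C g D F) {y : Fin n → ℕ} (hy : IsMinHalfCover G y) :
    ∑ v, y v + (defi n g).card = n := by
  obtain ⟨y0, hy0, hs0⟩ := h.cov
  have h1 := h.dual _ (extC_hc hy.1)
  have h2 := hy.2 _ (resC_hc hy0)
  rw [resC_sum] at h2
  rw [extC_sum] at h1
  omega

/-- The vertices of a component, as natural numbers. -/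
theorem S1W.exp_leW {G : SimpleGraph (Fin n)} {m C g D : ℕ → ℕ} {F : Finset ℕ}
    (h : S1W n (natAdj G) m C g D F) {y : Fin n → ℕ} (hy : IsMinHalfCover G y)
    {S : Set (Fin n)} (hS : G.IsVertexCover S) (K : G.ConnectedComponent) :
    ∃ f, cnt G K (fun v => m v = v) ≤ cnt G K (fun v => g v = v) + f ∧
      f ≤ oddPackingIn G (K.supp ∩ {v | y v = 1}) ∧
      f + cnt G K (fun _ => True) ≤ 2 * (S ∩ K.supp).ncard + cnt G K (fun v => g v = v) := by
  classical
  have hX := h.toS1G.toX
  have hA := h.gmax.1.toPI (natAdj_gr G)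
  set FK := F.filter (fun c => ∃ hc : D c < n, G.connectedComponentMk ⟨D c, hc⟩ = K) with hFK
  have hCK : ∀ c ∈ FK, ∀ v : Fin n, C v = c → G.connectedComponentMk v = K := by
    intro c hc v hv
    rw [hFK, Finset.mem_filter] at hc
    obtain ⟨hD, hK⟩ := hc.2
    have hDC := (h.dC _ hc.1).2
    have hr := hX.conn _ hc.1 v ⟨D c, hD⟩ hv hDC
    rw [← hK]
    exact SimpleGraph.ConnectedComponent.sound hr
  refine ⟨FK.card, ?_, ?_, ?_⟩
  · have hsub : (Finset.univ.filter (fun v : Fin n => G.connectedComponentMk v = K ∧ m v = v)).map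
        Fin.valEmbedding ⊆
        (Finset.univ.filter (fun v : Fin n => G.connectedComponentMk v = K ∧ g v = v)).map
        Fin.valEmbedding ∪ FK.image D := by
      intro x hx
      rw [Finset.mem_map] at hx
      obtain ⟨v, hv, rfl⟩ := hx
      rw [Finset.mem_filter] at hv
      rw [Finset.mem_union]
      rcases h.sub v v.2 hv.2.2 with h1 | ⟨c, hc, h1⟩
      · left
        rw [Finset.mem_map]
        exact ⟨v, by rw [Finset.mem_filter]; exact ⟨Finset.mem_univ _, hv.2.1, h1⟩, rfl⟩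
      · right
        rw [Finset.mem_image]
        refine ⟨c, ?_, h1⟩
        rw [hFK, Finset.mem_filter]
        refine ⟨hc, by rw [h1]; exact v.2, ?_⟩
        have : (⟨D c, by rw [h1]; exact v.2⟩ : Fin n) = v := Fin.ext h1
        rw [this]
        exact hv.2.1
    have hcard := (Finset.card_le_card hsub).trans (Finset.card_union_le _ _)
    rw [Finset.card_map, Finset.card_map] at hcard
    have him : (FK.image D).card ≤ FK.card := Finset.card_image_le
    rw [cnt_eq, cnt_eq]
    omega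
  · obtain ⟨e⟩ : Nonempty (Fin FK.card ≃ FK) := ⟨FK.equivFin.symm⟩
    have hF : ∀ i, (e i : ℕ) ∈ F := fun i => (Finset.mem_filter.1 (e i).2).1
    refine le_oddPackingIn (S := fun i => {v : Fin n | C v = (e i : ℕ) ∧ y v = 1}) ?_ ⟨?_, ?_⟩
    · rintro i v ⟨hv1, hv2⟩
      exact ⟨hCK _ (e i).2 v hv1, hv2⟩
    · intro i hb
      apply h.oddy (e i) (hF i) _ (extC_hc hy.1) (by rw [extC_sum]; exact h.weight hy)
      obtain ⟨col⟩ := hb
      refine ⟨fun v => if hv : ∃ hn : v < n, C v = (e i : ℕ) ∧ y ⟨v, hn⟩ = 1 then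
        decide (col ⟨⟨v, hv.choose⟩, hv.choose_spec⟩ = 0) else false, ?_⟩
      intro u v hu hv huv
      obtain ⟨hun, hvn, hadj⟩ := huv
      have hu' : ∃ hn : u < n, C u = (e i : ℕ) ∧ y ⟨u, hn⟩ = 1 := by
        refine ⟨hun, hu.2.1, ?_⟩
        have := hu.2.2
        unfold extC at this
        rwa [dif_pos hun] at this
      have hv' : ∃ hn : v < n, C v = (e i : ℕ) ∧ y ⟨v, hn⟩ = 1 := by
        refine ⟨hvn, hv.2.1, ?_⟩
        have := hv.2.2
        unfold extC at this
        rwa [dif_pos hvn] at this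
      beta_reduce
      rw [dif_pos hu', dif_pos hv']
      have hne := col.valid (v := ⟨⟨u, hu'.choose⟩, hu'.choose_spec⟩)
        (w := ⟨⟨v, hv'.choose⟩, hv'.choose_spec⟩) (by
        simpa [SimpleGraph.comap_adj] using hadj)
      intro heq
      apply hne
      rw [decide_eq_decide] at heq
      generalize col ⟨⟨u, hu'.choose⟩, hu'.choose_spec⟩ = a at *
      generalize col ⟨⟨v, hv'.choose⟩, hv'.choose_spec⟩ = b at *
      revert a b
      decide
    · intro i j hij u hu v hv
      have hu' : C u = (e i : ℕ) := hu.1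
      have hv' : C v = (e j : ℕ) := hv.1
      have hne : (e i : ℕ) ≠ e j := fun h => hij (e.injective (Subtype.ext h))
      refine ⟨?_, ?_⟩
      · rintro rfl
        exact hne (hu'.symm.trans hv')
      · intro hadj
        have := h.apart u v ⟨u.2, v.2, by simpa using hadj⟩ (by rw [hu']; exact hF i)
          (by rw [hv']; exact hF j)
        exact hne (hu'.symm.trans (this.trans hv'))
  · set W : Finset ℕ := (Finset.univ.filter
      (fun v : Fin n => G.connectedComponentMk v = K)).map Fin.valEmbedding with hWdef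
    have hmemW : ∀ v : Fin n, (v : ℕ) ∈ W ↔ G.connectedComponentMk v = K := by
      intro v
      rw [hWdef, Finset.mem_map]
      constructor
      · rintro ⟨w, hw, e⟩
        have : w = v := Fin.ext e
        subst this
        exact (Finset.mem_filter.1 hw).2
      · intro hv
        exact ⟨v, Finset.mem_filter.2 ⟨Finset.mem_univ _, hv⟩, rfl⟩
    have hWr : W ⊆ Finset.range n := by
      intro v hv
      rw [hWdef, Finset.mem_map] at hv
      obtain ⟨w, _, rfl⟩ := hv
      exact Finset.mem_range.2 w.2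
    have key := cover_bound_in (C := C) hA hWr (by
      intro v hv w hvw
      obtain ⟨h1, h2, h3⟩ := hvw
      have := (hmemW ⟨v, h1⟩).1 hv
      refine (hmemW ⟨w, h2⟩).2 ?_
      rw [← this]
      exact (SimpleGraph.ConnectedComponent.sound h3.reachable).symm)
      (X := S.toFinset.map Fin.valEmbedding) (by
      rintro u v ⟨hu, hv, huv⟩
      rcases hS huv with h2 | h2
      · left
        rw [Finset.mem_map]
        exact ⟨_, Set.mem_toFinset.2 h2, rfl⟩
      · right
        rw [Finset.mem_map]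
        exact ⟨_, Set.mem_toFinset.2 h2, rfl⟩) FK
      (fun c hc => h.walk c (Finset.mem_filter.1 hc).1)
      (fun c hc v hv hCv => (hmemW ⟨v, hv⟩).2 (hCK c hc ⟨v, hv⟩ hCv))
      (fun v hv hc => h.full v hv (Finset.mem_filter.1 hc).1)
    have e1 : W.card = cnt G K (fun _ => True) := by
      rw [cnt_eq, hWdef, Finset.card_map]
      congr 1
      ext v
      simp
    have e2 : (W.filter (fun v => g v = v)).card = cnt G K (fun v => g v = v) := by
      rw [cnt_eq, hWdef, Finset.filter_map, Finset.card_map, Finset.filter_filter]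
      rfl
    have e3 : (S.toFinset.map Fin.valEmbedding ∩ W).card = (S ∩ K.supp).ncard := by
      rw [hWdef, ← Finset.map_inter, Finset.card_map, Set.ncard_eq_toFinset_card']
      congr 1
      ext v
      simp
    rw [e1, e2, e3] at key
    exact key

/-- The gap after stage 1. -/
theorem S1W.gap {G : SimpleGraph (Fin n)} {m C g D : ℕ → ℕ} {F : Finset ℕ}
    (h : S1W n (natAdj G) m C g D F) (m' : ℕ → ℕ) (hm' : Mat (natAdj G) m') :
    (exposed n m).card ≤ (exposed n m').card + 2 * searches G := by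
  classical
  obtain ⟨y, S, hy, hS, he⟩ := searches_mem G
  rw [exposed_card_fin, exposed_card_fin, sum_cnt G, sum_cnt G, he, Finset.mul_sum,
    ← Finset.sum_add_distrib]
  apply Finset.sum_le_sum
  intro K _
  obtain ⟨f, f1, f2, f3⟩ := h.exp_leW hy hS K
  have e2 := assignedIn_le h.gmax K
  have e3 := le_assignedIn h.gmax K
  obtain ⟨j, hj, _⟩ := matchedIn_ge h.mat K
  obtain ⟨j', hj', hj2⟩ := matchedIn_ge hm' K
  have c1 := cnt_compl G K (fun v => m v = v)
  have c2 := cnt_compl G K (fun v => m' v = v)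
  omega

end comp

theorem searches_le {n : ℕ} (G : SimpleGraph (Fin n)) : searches G ≤ n :=
  (searches_le_surplus G).trans (surplus_le G)

theorem comp_run {n : ℕ} (G : SimpleGraph (Fin n)) (L : AdjLists G)
    {R : List ℕ → (ℕ → ℕ) → ℕ → Prop} {cap τ : ℕ}
    (hcap : 2 * n + 4 * G.edgeSet.ncard + 2 ≤ cap)
    (hR : ∀ (n' : ℕ) (H : SimpleGraph (Fin n')) (L' : AdjLists H), H.IsBipartite →
      (n' = 2 * n ∧ H.edgeSet.ncard ≤ 2 * G.edgeSet.ncard) →
        ∃ (out : ℕ → ℕ) (t : ℕ) (M : H.Subgraph), R L'.encode out t ∧ t ≤ τ ∧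
          IsMaximumMatching H M ∧ Represents out M) :
    ∃ (t : ℕ) (s : St) (M : G.Subgraph), Ex R cap oddC (St.init L.encode) t s ∧
      t ≤ 2200 * ((searches G + 1) * ((Nat.log 2 n + 1) * (n + G.edgeSet.ncard + 1))) +
        1 * τ ∧ IsMaximumMatching G M ∧ Represents (s.a 3) M := by
  set m := G.edgeSet.ncard with hm
  set Λ := Nat.log 2 n + 1 with hΛ
  have hG := natAdj_gr G
  have hinit : ∀ j i, (St.init L.encode).a j i = if j = 0 then L.encode.getD i 0 else 0 :=
    fun j i => rfl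
  have hoffn : L.encode.getD (n + 1) 0 = 2 * m := by rw [L.encode_off le_rfl, L.upTo_length]
  obtain ⟨s1, t1, e1, ht1, r10, r11, o1, a1, j1⟩ := unpack_spec (R := R) (cap := cap)
    (St.init L.encode) n (2 * m) (by rw [hinit, if_pos rfl, L.encode_zero])
    (by rw [hinit, if_pos rfl, hoffn])
  have hn : s1.a 4 n = 2 * m := by rw [o1 n le_rfl, hinit, if_pos rfl, hoffn]
  have hC : CSR n (natAdj G) (s1.a 4) (s1.a 5) := by
    refine csr_of_encode L (fun i hi => ?_) (fun p hp => ?_)
    · rw [o1 i hi, hinit, if_pos rfl]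
    · rw [a1 p (by omega), hinit, if_pos rfl]
  have q1 : s1.a 1 = fun _ => 0 := by
    rw [j1 1 (by decide) (by decide)]
    funext i
    rw [hinit, if_neg (by decide)]
  obtain ⟨s2, t2, m1, C, gg, D, F, e2, ht2, hS, h40, r20, r21, h45⟩ := stage1_specW (R := R) (cap := cap)
    (n := n) (A := natAdj G) s1 (τ := τ)
    (by
      intro H L' hH hlen
      refine hR _ H L' hH ⟨rfl, ?_⟩
      rw [hn, L'.upTo_length] at hlen
      omega)
    hG hC r10 r11 (by rw [q1]; intro i _; rfl) (by rw [q1]; simp [encLen]; (clear * - r10 hn; omega))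
    (by rw [hn]; omega)
  obtain ⟨s3, t3, f, e3, ht3, hmax, f40, r30, r31⟩ := augLoop_spec (R := R) (cap := cap)
    (g := 2 * searches G) hG s2 (by rw [h45 4 (by decide), h45 5 (by decide)]; exact hC) r20 r21 hS.mat
    (fun m' hm' => hS.gap m' hm') h40
  obtain ⟨s4, t4, e4, ht4, a43⟩ := cOut_spec (R := R) (cap := cap) s3 r30
  obtain ⟨M, hM, hrep⟩ := maximum_of_isMax (f := s4.a 3) hmax (by
    intro v hv
    rw [a43 v hv, f40 v hv])
  refine ⟨_, s4, M, .seq e1 (.seq e2 (.seq e3 e4)), ?_, hM, hrep⟩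
  -- the time
  rw [h45 4 (by decide), hn, ← hΛ] at ht3
  rw [hn] at ht2
  set X := Λ * (n + m + 1) with hX
  set k := searches G with hk
  have x1 : n + m + 1 ≤ X := Nat.le_mul_of_pos_left _ (by omega)
  have x2 : X ≤ (k + 1) * X := Nat.le_mul_of_pos_left _ (by omega)
  have x3 : (2 * k + 1) * (300 * (Λ * (n + 2 * m + 1))) ≤ 1200 * ((k + 1) * X) := by
    calc (2 * k + 1) * (300 * (Λ * (n + 2 * m + 1))) ≤
        (2 * k + 1 + 1) * (300 * (Λ * (2 * (n + m + 1)))) := by
          apply Nat.mul_le_mul (by omega)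
          apply Nat.mul_le_mul_left
          apply Nat.mul_le_mul_left
          (clear * - r10 r20 r30; omega)
      _ = 1200 * ((k + 1) * X) := by rw [hX]; ring
  rw [one_mul]
  omega


/-- Maximum matching in time governed by the search number, component by component. -/
theorem comp_reduction (T : ℕ → ℕ → ℕ)
    (hT : ∀ n n' m m', n ≤ n' → m ≤ m' → T n m ≤ T n' m')
    (hP : ∃ P, Solves P (fun _ G => G.IsBipartite) (fun n G => T n G.edgeSet.ncard)) :
    ∃ P C, Solves P (fun _ _ => True) (fun n G =>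
      C * (T (2 * n) (2 * G.edgeSet.ncard) +
        (searches G + 1) * ((Nat.log 2 n + 1) * (n + G.edgeSet.ncard + 1)))) := by
  obtain ⟨P, hP⟩ := hP
  obtain ⟨k0, hk0⟩ : ∃ k0, 2200 ≤ 2 ^ k0 := ⟨12, by norm_num⟩
  have hlog : ∀ n m, Nat.log 2 n + 1 ≤ n + m + 2 := by
    intro n m
    have := Nat.log_le_self 2 n
    omega
  have hpow : ∀ N, 2 ≤ N → 2200 * N ^ 3 ≤ N ^ (k0 + 3) := by
    intro N hN
    rw [pow_add]
    apply Nat.mul_le_mul_right
    exact hk0.trans (Nat.pow_le_pow_left hN k0)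
  have hA : ∀ (n : ℕ) (G : SimpleGraph (Fin n)),
      2200 * ((searches G + 1) * ((Nat.log 2 n + 1) * (n + G.edgeSet.ncard + 1))) ≤
        (n + G.edgeSet.ncard + 2) ^ (k0 + 3) := by
    intro n G
    refine le_trans (Nat.mul_le_mul_left _ ?_) (hpow _ (by omega))
    have h1 := searches_le G
    have h2 := hlog n G.edgeSet.ncard
    obtain ⟨N, hN⟩ : ∃ N, N = n + G.edgeSet.ncard + 2 := ⟨_, rfl⟩
    rw [← hN] at h2 ⊢
    have h3 : (searches G + 1) * ((Nat.log 2 n + 1) * (n + G.edgeSet.ncard + 1)) ≤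
        N * (N * N) := Nat.mul_le_mul (by omega) (Nat.mul_le_mul h2 (by omega))
    have h4 : N * (N * N) = N ^ 3 := by ring
    omega
  have hC : ∀ (n : ℕ) (G : SimpleGraph (Fin n)),
      2 * n + 4 * G.edgeSet.ncard + 2 ≤ (n + G.edgeSet.ncard + 2) ^ (k0 + 3) := by
    intro n G
    refine le_trans ?_ (hpow _ (by omega))
    obtain ⟨N, hN⟩ : ∃ N, N = n + G.edgeSet.ncard + 2 := ⟨_, rfl⟩
    rw [← hN]
    have h4 : N * 1 ≤ N * (N * N) :=
      Nat.mul_le_mul_left _ (Nat.mul_pos (by omega) (by omega))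
    have h5 : N * (N * N) = N ^ 3 := by ring
    omega
  have hsz : ∀ (n : ℕ) (G : SimpleGraph (Fin n)), True → ∀ (n' : ℕ) (H : SimpleGraph (Fin n')),
      H.IsBipartite → (n' = 2 * n ∧ H.edgeSet.ncard ≤ 2 * G.edgeSet.ncard) →
      n' + H.edgeSet.ncard + 2 ≤ (n + G.edgeSet.ncard + 2) ^ 2 ∧
        T n' H.edgeSet.ncard ≤ T (2 * n) (2 * G.edgeSet.ncard) := by
    rintro n G - n' H - ⟨h1, h2⟩
    refine ⟨?_, hT _ _ _ _ h1.le h2⟩
    obtain ⟨N, hN⟩ : ∃ N, N = n + G.edgeSet.ncard + 2 := ⟨_, rfl⟩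
    rw [← hN, pow_two]
    have h4 : 2 * N ≤ N * N := Nat.mul_le_mul_right _ (by omega)
    omega
  obtain ⟨P', C, k, hk⟩ := solves_of_L1 (CG := fun _ _ => True) hP (K := 64) (by decide)
    oddC (cst := 4) oddC_ok (k0 + 3) 2
    (fun n G n' H => n' = 2 * n ∧ H.edgeSet.ncard ≤ 2 * G.edgeSet.ncard)
    (fun n G => T (2 * n) (2 * G.edgeSet.ncard))
    (fun n G => 2200 * ((searches G + 1) * ((Nat.log 2 n + 1) * (n + G.edgeSet.ncard + 1))))
    (fun _ _ => 1) hsz (fun n G _ => hA n G)
    (fun n G _ L R τ hR => comp_run G L (hC n G) hR)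
  refine ⟨P', 2201 * C, k, fun n G hG L => ?_⟩
  obtain ⟨t, s, M, e, ht, hM, hr⟩ := hk n G hG L
  refine ⟨t, s, M, e, ht.trans ?_, hM, hr⟩
  beta_reduce
  set Λ := Nat.log 2 n + 1 with hΛ
  set m := G.edgeSet.ncard with hm
  set Y := T (2 * n) (2 * m) with hY
  set X := (searches G + 1) * (Λ * (n + m + 1)) with hX
  have y1 : n + m + 1 ≤ X :=
    le_trans (Nat.le_mul_of_pos_left _ (by omega)) (Nat.le_mul_of_pos_left _ (by omega))
  calc C * (2200 * X + 1 * Y + n + m + 1) ≤ C * (2201 * (Y + X)) :=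
        Nat.mul_le_mul_left _ (by omega)
    _ = 2201 * C * (Y + X) := by ring

/-- Almost-linear time when the search number is subpolynomial. -/
theorem comp_almostLinear (hB : AlmostLinear fun _ G => G.IsBipartite) (κ : ℕ → ℕ)
    (hκ : ∀ ε : ℝ, 0 < ε → ∃ c : ℝ, ∀ N : ℕ, (κ N : ℝ) ≤ c * ((N : ℝ) + 1) ^ ε) :
    AlmostLinear fun n G => searches G ≤ κ (n + G.edgeSet.ncard) := by
  obtain ⟨P, T, hP, hT⟩ := hB
  set Tb : ℕ → ℕ := fun N => (Finset.range (N + 1)).sup T with hTb
  have hle : ∀ N, T N ≤ Tb N := fun N =>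
    Finset.le_sup (f := T) (Finset.mem_range.2 (Nat.lt_succ_self N))
  have hmono : ∀ N N', N ≤ N' → Tb N ≤ Tb N' := by
    intro N N' hN
    apply Finset.sup_mono
    intro x hx
    rw [Finset.mem_range] at hx ⊢
    omega
  have hTb' : ∀ ε : ℝ, 0 < ε → ∃ c : ℝ, 0 ≤ c ∧ ∀ N : ℕ,
      (Tb N : ℝ) ≤ c * ((N : ℝ) + 1) ^ (1 + ε) := by
    intro ε hε
    obtain ⟨c, hc⟩ := hT ε hε
    have hc0 : 0 ≤ c := by
      have := hc 0
      simp only [Nat.cast_zero, zero_add, Real.one_rpow, mul_one] at this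
      exact (Nat.cast_nonneg _).trans this
    refine ⟨c, hc0, fun N => ?_⟩
    obtain ⟨k, hk, hk'⟩ : ∃ k ∈ Finset.range (N + 1), (Finset.range (N + 1)).sup T = T k :=
      Finset.exists_mem_eq_sup _ ⟨0, by simp only [Finset.mem_range, lt_add_iff_pos_left, Order.lt_add_one_iff, zero_le]⟩ T
    show (((Finset.range (N + 1)).sup T : ℕ) : ℝ) ≤ _
    rw [hk']
    refine (hc k).trans (mul_le_mul_of_nonneg_left ?_ hc0)
    apply Real.rpow_le_rpow (by (clear * -; positivity)) _ (by (clear * - hε; linarith))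
    rw [Finset.mem_range] at hk
    have : (k : ℝ) ≤ N := by exact_mod_cast (by omega : k ≤ N)
    linarith only [this]
  obtain ⟨P', C, hP'⟩ := comp_reduction (fun n m => Tb (n + m))
    (fun n n' m m' h1 h2 => hmono _ _ (by omega))
    ⟨P, hP.mono (fun _ _ h => h) fun n G _ => hle _⟩
  refine ⟨P', fun N => C * (Tb (2 * N) + (κ N + 1) * ((Nat.log 2 N + 1) * (N + 1))),
    hP'.mono (fun _ _ _ => trivial) ?_, ?_⟩
  · intro n G hG
    beta_reduce
    have h1 : Nat.log 2 n ≤ Nat.log 2 (n + G.edgeSet.ncard) := Nat.log_mono_right (by omega)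
    apply Nat.mul_le_mul_left
    apply Nat.add_le_add
    · exact hmono _ _ (by omega)
    · exact Nat.mul_le_mul (by omega) (Nat.mul_le_mul (by omega) le_rfl)
  · intro ε hε
    obtain ⟨c1, hc1, h1⟩ := nlog_bound (δ := ε / 2) (by linarith only [hε])
    obtain ⟨c2, hc2, h2⟩ := hTb' ε hε
    obtain ⟨c3, h3⟩ := hκ (ε / 2) (by linarith)
    have hc3 : 0 ≤ c3 := by
      have := h3 0
      simp only [Nat.cast_zero, zero_add, Real.one_rpow, mul_one] at this
      exact (Nat.cast_nonneg _).trans this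
    refine ⟨C * (c2 * 2 ^ (1 + ε) + (c3 + 1) * c1), fun N => ?_⟩
    have hN : (0 : ℝ) ≤ N := Nat.cast_nonneg N
    have hN1 : (0 : ℝ) < (N : ℝ) + 1 := by linarith
    set x : ℝ := (N : ℝ) + 1 with hx
    have g1 := h1 N
    have g3 := h3 N
    have g2 : (Tb (2 * N) : ℝ) ≤ c2 * 2 ^ (1 + ε) * x ^ (1 + ε) := by
      refine (h2 (2 * N)).trans ?_
      rw [mul_assoc, ← Real.mul_rpow (by norm_num) hN1.le]
      apply mul_le_mul_of_nonneg_left _ hc2
      apply Real.rpow_le_rpow (by (clear * -; positivity)) _ (by linarith only [hε])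
      push_cast
      rw [hx]
      linarith only []
    have p1 : (0 : ℝ) ≤ x ^ (ε / 2) := Real.rpow_nonneg hN1.le _
    have p3 : (1 : ℝ) ≤ x ^ (ε / 2) := Real.one_le_rpow (by linarith) (by linarith only [hε])
    have g4 : (κ N : ℝ) + 1 ≤ (c3 + 1) * x ^ (ε / 2) := by
      rw [add_mul, one_mul]; linarith only [g3, p3]
    have e1 : x ^ (ε / 2) * (x ^ (ε / 2) * x) = x ^ (1 + ε) := by
      rw [← mul_assoc, ← Real.rpow_add hN1, ← Real.rpow_add_one hN1.ne']
      congr 1
      ring
    push_cast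
    rw [mul_assoc]
    apply mul_le_mul_of_nonneg_left _ (Nat.cast_nonneg _)
    have q2 : ((κ N : ℝ) + 1) * (((Nat.log 2 N : ℝ) + 1) * x) ≤
        (c3 + 1) * c1 * x ^ (1 + ε) := by
      calc ((κ N : ℝ) + 1) * (((Nat.log 2 N : ℝ) + 1) * x) ≤
          ((c3 + 1) * x ^ (ε / 2)) * ((c1 * x ^ (ε / 2)) * x) := by
            apply mul_le_mul g4 _ (by (clear * -; positivity)) (by (clear * - hc3; positivity))
            exact mul_le_mul_of_nonneg_right g1 hN1.le
        _ = (c3 + 1) * c1 * (x ^ (ε / 2) * (x ^ (ε / 2) * x)) := by ring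
        _ = _ := by rw [e1]
    rw [add_mul (c2 * 2 ^ (1 + ε))]
    exact add_le_add g2 q2



end Vale.Agent.P305
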