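import Vale.Agent.P305.H794.Comp

/-! Comparison of the search numbers; a nearly maximum matching from one bipartite call. -/

set_option autoImplicit false
set_option linter.all false

namespace Vale.Agent.P305

open Function (update)
open L1

theorem apx_runW {n : ℕ} (G : SimpleGraph (Fin n)) (L : AdjLists G)
    {R : List ℕ → (ℕ → ℕ) → ℕ → Prop} {cap τ : ℕ}
    (hcap : 2 * n + 4 * G.edgeSet.ncard + 2 ≤ cap)
    (hR : ∀ (n' : ℕ) (H : SimpleGraph (Fin n')) (L' : AdjLists H), H.IsBipartite →
      (n' = 2 * n ∧ H.edgeSet.ncard ≤ 2 * G.edgeSet.ncard) →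
        ∃ (out : ℕ → ℕ) (t : ℕ) (M : H.Subgraph), R L'.encode out t ∧ t ≤ τ ∧
          IsMaximumMatching H M ∧ Represents out M) :
    ∃ (t : ℕ) (s : St) (m C g D : ℕ → ℕ) (F : Finset ℕ),
      Ex R cap apxC (St.init L.encode) t s ∧ S1W n (natAdj G) m C g D F ∧
      (∀ v < n, s.a 3 v = if m v = v then 0 else m v + 1) ∧
      t ≤ 500 * (n + G.edgeSet.ncard + 1) + 1 * τ := by
  set m := G.edgeSet.ncard with hm
  have hG := natAdj_gr G
  have hinit : ∀ j i, (St.init L.encode).a j i = if j = 0 then L.encode.getD i 0 else 0 :=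
    fun j i => rfl
  have hoffn : L.encode.getD (n + 1) 0 = 2 * m := by rw [L.encode_off le_rfl, L.upTo_length]
  obtain ⟨s1, t1, e1, ht1, r10, r11, o1, a1, j1⟩ := unpack_spec (R := R) (cap := cap)
    (St.init L.encode) n (2 * m) (by rw [hinit, if_pos rfl, L.encode_zero])
    (by rw [hinit, if_pos rfl, hoffn])
  have hn : s1.a 4 n = 2 * m := by rw [o1 n le_rfl, hinit, if_pos rfl, hoffn]
  have hC : CSR n (natAdj G) (s1.a 4) (s1.a 5) := by
    refine csr_of_encode L (fun i hi => ?_) (fun p hp => ?_)
    · rw [o1 i hi, hinit, if_pos rfl]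
    · rw [a1 p (by omega), hinit, if_pos rfl]
  have q1 : s1.a 1 = fun _ => 0 := by
    rw [j1 1 (by decide) (by decide)]
    funext i
    rw [hinit, if_neg (by decide)]
  obtain ⟨s2, t2, m1, C, g, D, F, e2, ht2, hS, h40, r20, r21, h45⟩ := stage1_specW (R := R) (cap := cap)
    (n := n) (A := natAdj G) s1 (τ := τ)
    (by
      intro H L' hH hlen
      refine hR _ H L' hH ⟨rfl, ?_⟩
      rw [hn, L'.upTo_length] at hlen
      omega)
    hG hC r10 r11 (by rw [q1]; intro i _; rfl) (by rw [q1]; simp [encLen]; (clear * - r10 hn; omega))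
    (by rw [hn]; omega)
  obtain ⟨s4, t4, e4, ht4, a43⟩ := cOut_spec (R := R) (cap := cap) s2 r20
  refine ⟨_, s4, m1, C, g, D, F, .seq e1 (.seq e2 e4), hS, ?_, ?_⟩
  · intro v hv
    rw [a43 v hv, h40 v hv]
  · rw [hn] at ht2
    rw [one_mul]
    omega

/-- One bipartite call gives a matching with at most `searches G` edges less than a maximum
matching. -/
theorem apx_reductionW (T : ℕ → ℕ → ℕ)
    (hT : ∀ n n' m m', n ≤ n' → m ≤ m' → T n m ≤ T n' m')
    (hP : ∃ P, Solves P (fun _ G => G.IsBipartite) (fun n G => T n G.edgeSet.ncard)) :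
    ∃ P C, SolvesUpTo P (fun _ G => searches G) (fun n G =>
      C * (T (2 * n) (2 * G.edgeSet.ncard) + n + G.edgeSet.ncard + 1)) := by
  obtain ⟨P, hP⟩ := hP
  have hpow : ∀ N, 2 ≤ N → 500 * N ≤ N ^ (9 + 1) := by
    intro N hN
    rw [pow_succ]
    apply Nat.mul_le_mul_right
    exact (by norm_num : 500 ≤ 2 ^ 9).trans (Nat.pow_le_pow_left hN 9)
  have hA : ∀ (n : ℕ) (G : SimpleGraph (Fin n)), 500 * (n + G.edgeSet.ncard + 1) ≤
      (n + G.edgeSet.ncard + 2) ^ (9 + 1) := by
    intro n G
    refine le_trans ?_ (hpow (n + G.edgeSet.ncard + 2) (by omega))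
    omega
  have hC : ∀ (n : ℕ) (G : SimpleGraph (Fin n)),
      2 * n + 4 * G.edgeSet.ncard + 2 ≤ (n + G.edgeSet.ncard + 2) ^ (9 + 1) := by
    intro n G
    refine le_trans ?_ (hpow (n + G.edgeSet.ncard + 2) (by omega))
    omega
  have hsz : ∀ (n : ℕ) (G : SimpleGraph (Fin n)), True → ∀ (n' : ℕ) (H : SimpleGraph (Fin n')),
      H.IsBipartite → (n' = 2 * n ∧ H.edgeSet.ncard ≤ 2 * G.edgeSet.ncard) →
      n' + H.edgeSet.ncard + 2 ≤ (n + G.edgeSet.ncard + 2) ^ 2 ∧
        T n' H.edgeSet.ncard ≤ T (2 * n) (2 * G.edgeSet.ncard) := by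
    rintro n G - n' H - ⟨h1, h2⟩
    refine ⟨?_, hT _ _ _ _ h1.le h2⟩
    obtain ⟨N, hN⟩ : ∃ N, N = n + G.edgeSet.ncard + 2 := ⟨_, rfl⟩
    rw [← hN, pow_two]
    have h4 : 2 * N ≤ N * N := Nat.mul_le_mul_right _ (by omega)
    omega
  obtain ⟨P', C, k, hk⟩ := runs_of_L1 (CG := fun _ _ => True)
    (Q := fun n G M => M.IsMatching ∧ ∀ M' : G.Subgraph, M'.IsMatching →
      M'.edgeSet.ncard ≤ M.edgeSet.ncard + searches G) hP (K := 64) (by decide)
    apxC (cst := 4) apxC_ok (9 + 1) 2
    (fun n G n' H => n' = 2 * n ∧ H.edgeSet.ncard ≤ 2 * G.edgeSet.ncard)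
    (fun n G => T (2 * n) (2 * G.edgeSet.ncard))
    (fun n G => 500 * (n + G.edgeSet.ncard + 1))
    (fun _ _ => 1) hsz (fun n G _ => hA n G)
    (fun n G _ L R τ hR => by
      obtain ⟨t, s, m, C, g, D, F, e, hS, h3, ht⟩ := apx_runW G L (hC n G) hR
      obtain ⟨M, hM, hrep, hcard⟩ := exists_sub hS.mat h3
      refine ⟨t, s, M, e, ht, ⟨hM, fun M' hM' => ?_⟩, hrep⟩
      have h1 := hS.gap _ (mateOf_mat hM')
      have h2 := mateOf_card hM'
      omega)
  refine ⟨P', 501 * C, k, fun n G L => ?_⟩
  obtain ⟨t, s, M, e, ht, hM, hr⟩ := hk n G trivial L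
  refine ⟨t, s, M, e, ht.trans ?_, hM.1, hM.2, hr⟩
  beta_reduce
  rw [mul_comm 501 C, mul_assoc]
  apply Nat.mul_le_mul_left
  omega

/-- Every graph has the structure found by stage 1. -/
theorem exists_S1W {n : ℕ} (G : SimpleGraph (Fin n)) :
    ∃ (m C g D : ℕ → ℕ) (F : Finset ℕ), S1W n (natAdj G) m C g D F := by
  classical
  obtain ⟨L⟩ : Nonempty (AdjLists G) :=
    ⟨⟨fun v => (Finset.univ.filter (fun w => G.Adj v w)).toList,
      fun v => Finset.nodup_toList _, fun u v => by simp⟩⟩
  obtain ⟨t, s, m, C, g, D, F, _, hS, _⟩ := apx_runW (cap := 2 * n + 4 * G.edgeSet.ncard + 2)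
    (R := fun _ _ _ => True) (τ := 0) G L le_rfl (by
      intro n' H L' _ _
      obtain ⟨M, hM⟩ : ∃ M : H.Subgraph, IsMaximumMatching H M := by
        have hfin : (Set.range fun M : {M : H.Subgraph // M.IsMatching} =>
            M.1.edgeSet.ncard).Finite := Set.toFinite _
        obtain ⟨_, ⟨M, rfl⟩, hM⟩ := Set.exists_max_image _ id hfin
          ⟨_, ⟨⟨⊥, by intro v hv; exact absurd hv (by simp)⟩, rfl⟩⟩
        exact ⟨M.1, M.2, fun M' hM' => hM _ ⟨⟨M', hM'⟩, rfl⟩⟩
      obtain ⟨M', hM', hrep⟩ := maximum_of_isMax (isMax_mateOf hM)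
        (f := fun v => if mateOf M v = v then 0 else mateOf M v + 1) (fun v _ => rfl)
      exact ⟨_, 0, M', trivial, le_rfl, hM', hrep⟩)
  exact ⟨m, C, g, D, F, hS⟩


section comp

variable {n : ℕ}

theorem sum_oddPackingIn_inter (G : SimpleGraph (Fin n)) [Fintype G.ConnectedComponent]
    (U : Set (Fin n)) :
    ∑ K : G.ConnectedComponent, oddPackingIn G (K.supp ∩ U) ≤ oddPackingOn G U := by
  classical
  choose S hS using fun K : G.ConnectedComponent => exists_oddPackingIn G (K.supp ∩ U)
  have hc : Fintype.card (Σ K : G.ConnectedComponent, Fin (oddPackingIn G (K.supp ∩ U))) =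
      ∑ K : G.ConnectedComponent, oddPackingIn G (K.supp ∩ U) := by
    rw [Fintype.card_sigma]
    simp
  obtain ⟨e⟩ : Nonempty (Fin (∑ K : G.ConnectedComponent, oddPackingIn G (K.supp ∩ U)) ≃
      Σ K : G.ConnectedComponent, Fin (oddPackingIn G (K.supp ∩ U))) :=
    ⟨(Fintype.equivFinOfCardEq hc).symm⟩
  refine le_oddPackingOn (S := fun i => S (e i).1 (e i).2) ⟨?_, ?_⟩ ?_
  · intro i
    exact (hS (e i).1).2.1 (e i).2
  · intro i j hij u hu v hv
    have hne : e i ≠ e j := fun h => hij (e.injective h)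
    beta_reduce at hu hv
    generalize e i = x at hu hne
    generalize e j = y at hv hne
    obtain ⟨K, a⟩ := x
    obtain ⟨K', b⟩ := y
    by_cases hK : K = K'
    · subst hK
      have hab : a ≠ b := fun h => hne (by rw [h])
      exact (hS K).2.2 a b hab u hu v hv
    · have h1 : G.connectedComponentMk u = K := ((hS K).1 a hu).1
      have h2 : G.connectedComponentMk v = K' := ((hS K').1 b hv).1
      refine ⟨?_, ?_⟩
      · rintro rfl
        exact hK (h1.symm.trans h2)
      · intro hadj
        exact hK (h1.symm.trans ((SimpleGraph.ConnectedComponent.sound hadj.reachable).trans h2))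
  · intro i v hv
    exact ((hS (e i).1).1 _ hv).2

/-- A maximum matching is maximum in every component. -/
theorem matchedIn_le_cnt {G : SimpleGraph (Fin n)} {f : ℕ → ℕ} (hf : IsMax n (natAdj G) f)
    (K : G.ConnectedComponent) : matchedIn G K.supp ≤ cnt G K (fun v => ¬ f v = v) := by
  classical
  have hmem := Nat.sSup_mem (s := {k | ∃ M : G.Subgraph, M.IsMatching ∧ M.verts ⊆ K.supp ∧
      M.verts.ncard = k})
    ⟨0, ⊥, by intro v hv; exact absurd hv (by simp), by simp, by simp⟩ (matchedIn_bdd G K.supp)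
  obtain ⟨M, h1, h2, h3⟩ := hmem
  have hm := mateOf_mat h1
  set p : ℕ → Prop := fun x => ∃ hx : x < n, G.connectedComponentMk ⟨x, hx⟩ = K with hp
  set f' : ℕ → ℕ := fun x => if p x then mateOf M x else f x with hf'
  -- matchings preserve the component
  have hpres : ∀ (h : ℕ → ℕ), Mat (natAdj G) h → ∀ x, p x ↔ p (h x) := by
    intro h hh x
    by_cases hx : h x = x
    · rw [hx]
    · obtain ⟨a1, a2, a3⟩ := hh.adj x hx
      have e := SimpleGraph.ConnectedComponent.sound a3.reachable
      constructor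
      · rintro ⟨b1, b2⟩
        exact ⟨a2, by rw [← b2]; exact e.symm⟩
      · rintro ⟨b1, b2⟩
        exact ⟨a1, by rw [← b2]; exact e⟩
  have hM : Mat (natAdj G) f' := by
    constructor
    · intro x
      by_cases hx : p x
      · have e1 : f' x = mateOf M x := if_pos hx
        have e2 : f' (mateOf M x) = mateOf M (mateOf M x) := if_pos ((hpres _ hm x).1 hx)
        rw [e1, e2, hm.inv]
      · have e1 : f' x = f x := if_neg hx
        have e2 : f' (f x) = f (f x) := if_neg (fun h => hx ((hpres _ hf.1 x).2 h))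
        rw [e1, e2, hf.1.inv]
    · intro x hne
      by_cases hx : p x
      · have e1 : f' x = mateOf M x := if_pos hx
        rw [e1] at hne ⊢
        exact hm.adj x hne
      · have e1 : f' x = f x := if_neg hx
        rw [e1] at hne ⊢
        exact hf.1.adj x hne
  have hle := hf.2 f' hM
  rw [exposed_card_fin, exposed_card_fin, sum_cnt G, sum_cnt G,
    ← Finset.add_sum_erase _ _ (Finset.mem_univ K),
    ← Finset.add_sum_erase _ (fun K => cnt G K (fun v => f' v = v)) (Finset.mem_univ K)] at hle
  have hrest : ∑ K' ∈ Finset.univ.erase K, cnt G K' (fun v => f v = v) =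
      ∑ K' ∈ Finset.univ.erase K, cnt G K' (fun v => f' v = v) := by
    apply Finset.sum_congr rfl
    intro K' hK'
    rw [cnt_eq, cnt_eq]
    congr 1
    ext v
    simp only [Finset.mem_filter, Finset.mem_univ, true_and]
    have hne := Finset.ne_of_mem_erase hK'
    constructor
    · rintro ⟨q1, q2⟩
      refine ⟨q1, ?_⟩
      have : ¬ p v := fun ⟨_, q⟩ => hne (q1.symm.trans q)
      show f' v = v
      rw [show f' v = f v from if_neg this]
      exact q2
    · rintro ⟨q1, q2⟩
      refine ⟨q1, ?_⟩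
      have : ¬ p v := fun ⟨_, q⟩ => hne (q1.symm.trans q)
      rw [show f' v = f v from if_neg this] at q2
      exact q2
  rw [hrest] at hle
  have hle' : cnt G K (fun v => f v = v) ≤ cnt G K (fun v => f' v = v) := by
    have := hle
    beta_reduce at this
    omega
  have hcov : cnt G K (fun v => ¬ f' v = v) = M.verts.ncard := by
    rw [cnt_eq, ← Set.ncard_coe_finset]
    congr 1
    ext v
    simp only [Finset.coe_filter, Finset.mem_univ, true_and, Set.mem_setOf_eq]
    constructor
    · rintro ⟨q1, q2⟩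
      have : p v := ⟨v.2, q1⟩
      rw [show f' v = mateOf M v from if_pos this] at q2
      by_contra hc
      exact q2 (mateOf_not fun _ => hc)
    · intro hv
      refine ⟨h2 hv, ?_⟩
      have : p v := ⟨v.2, h2 hv⟩
      rw [show f' v = mateOf M v from if_pos this]
      obtain ⟨w, hw, _⟩ := h1 hv
      rw [mateOf_adj h1 hw]
      intro e
      have : w = v := Fin.ext e
      subst this
      exact G.loopless.irrefl _ (M.adj_sub hw)
  have c1 := cnt_compl G K (fun v => f v = v)
  have c2 := cnt_compl G K (fun v => f' v = v)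
  have h3' : M.verts.ncard = matchedIn G K.supp := h3
  omega

theorem sum_matchedIn (G : SimpleGraph (Fin n)) [Fintype G.ConnectedComponent] :
    ∑ K : G.ConnectedComponent, matchedIn G K.supp ≤ 2 * matchNum G := by
  classical
  obtain ⟨M, hM, hc⟩ := exists_matchNum G
  have hmax : IsMax n (natAdj G) (mateOf M) :=
    isMax_mateOf ⟨hM, fun M' hM' => by rw [hc]; exact le_matchNum hM'⟩
  have h1 : ∑ K : G.ConnectedComponent, matchedIn G K.supp ≤
      ∑ K : G.ConnectedComponent, cnt G K (fun v => ¬ mateOf M v = v) :=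
    Finset.sum_le_sum fun K _ => matchedIn_le_cnt hmax K
  rw [← sum_cnt G] at h1
  have h2 := mateOf_card hM
  rw [exposed_card_fin] at h2
  have h3 := Finset.card_filter_add_card_filter_not (s := (Finset.univ : Finset (Fin n)))
    (fun v => mateOf M v = v)
  rw [Finset.card_univ, Fintype.card_fin] at h3
  omega

/-- The componentwise search number is at most the search number. -/
theorem searches_le_searchNum (G : SimpleGraph (Fin n)) : searches G ≤ searchNum G := by
  classical
  obtain ⟨y, S, hy, hS, he⟩ := searchNum_mem G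
  refine (searches_le_of hy hS).trans ?_
  rw [he]
  obtain ⟨m, C, g, D, F, hW⟩ := exists_S1W G
  set q : G.ConnectedComponent → ℕ := fun K => min (oddPackingIn G (K.supp ∩ {v | y v = 1}))
      (2 * (S ∩ K.supp).ncard - assignedIn G K.supp) with hq
  -- each term
  have hterm : ∀ K : G.ConnectedComponent, assignedIn G K.supp ≤ q K + matchedIn G K.supp ∧
      assignedIn G K.supp + (2 * (S ∩ K.supp).ncard - assignedIn G K.supp) ≤
        2 * (S ∩ K.supp).ncard := by
    intro K
    obtain ⟨f, f1, f2, f3⟩ := hW.exp_leW hy hS K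
    have e2 := assignedIn_le hW.gmax K
    have e3 := le_assignedIn hW.gmax K
    obtain ⟨j, hj, hj2⟩ := matchedIn_ge hW.mat K
    have c1 := cnt_compl G K (fun v => m v = v)
    simp only [hq]
    omega
  have hsum1 : ∑ K : G.ConnectedComponent, (q K + matchedIn G K.supp - assignedIn G K.supp) / 2 ≤
      (∑ K : G.ConnectedComponent, (q K + matchedIn G K.supp - assignedIn G K.supp)) / 2 := by
    rw [Nat.le_div_iff_mul_le (by norm_num), Finset.sum_mul]
    apply Finset.sum_le_sum
    intro K _
    exact Nat.div_mul_le_self _ _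
  have hsum2 : ∑ K : G.ConnectedComponent, (q K + matchedIn G K.supp - assignedIn G K.supp) +
      ∑ K : G.ConnectedComponent, assignedIn G K.supp =
      ∑ K : G.ConnectedComponent, q K + ∑ K : G.ConnectedComponent, matchedIn G K.supp := by
    rw [← Finset.sum_add_distrib, ← Finset.sum_add_distrib]
    apply Finset.sum_congr rfl
    intro K _
    have := (hterm K).1
    omega
  have hA : ∑ K : G.ConnectedComponent, assignedIn G K.supp = ∑ v, y v := by
    have h1 := hW.weight hy
    have h2 : ∀ K : G.ConnectedComponent, assignedIn G K.supp + cnt G K (fun v => g v = v) =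
        cnt G K (fun _ => True) := fun K =>
      le_antisymm (assignedIn_le hW.gmax K) (le_assignedIn hW.gmax K)
    have h3 := Finset.sum_congr (rfl : (Finset.univ : Finset G.ConnectedComponent) = Finset.univ)
      (fun K _ => h2 K)
    rw [Finset.sum_add_distrib, ← sum_cnt G, ← sum_cnt G] at h3
    have h4 : (defi n g).card = (Finset.univ.filter (fun v : Fin n => g v = v)).card :=
      exposed_card_fin g
    have h5 : (Finset.univ.filter (fun _ : Fin n => True)).card = n := by simp
    omega
  have hM := sum_matchedIn G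
  have hq1 : ∑ K : G.ConnectedComponent, q K ≤ oddPackingOn G {v | y v = 1} :=
    (Finset.sum_le_sum fun K _ => min_le_left _ _).trans (sum_oddPackingIn_inter G _)
  have hSc : ∑ K : G.ConnectedComponent, (S ∩ K.supp).ncard = S.ncard := by
    have : ∀ K : G.ConnectedComponent, (S ∩ K.supp).ncard = cnt G K (fun v => v ∈ S) := by
      intro K
      rw [cnt_eq, ← Set.ncard_coe_finset]
      congr 1
      ext v
      simp only [Finset.coe_filter, Finset.mem_univ, true_and, Set.mem_setOf_eq, Set.mem_inter_iff]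
      constructor
      · rintro ⟨q1, q2⟩
        exact ⟨q2, q1⟩
      · rintro ⟨q1, q2⟩
        exact ⟨q2, q1⟩
    rw [Finset.sum_congr rfl fun K _ => this K, ← sum_cnt G, ← Set.ncard_coe_finset]
    congr 1
    ext v
    simp
  have hq2 : ∑ K : G.ConnectedComponent, q K + ∑ v, y v ≤ 2 * S.ncard := by
    rw [← hA, ← Finset.sum_add_distrib, ← hSc, Finset.mul_sum]
    apply Finset.sum_le_sum
    intro K _
    have h1 := (hterm K).2
    have h2 : q K ≤ 2 * (S ∩ K.supp).ncard - assignedIn G K.supp := min_le_right _ _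
    omega
  obtain ⟨M0, hM0, hM0c⟩ := exists_matchNum G
  have h6 := two_matching_le hM0 hy.1
  rw [hM0c] at h6
  change ∑ K : G.ConnectedComponent, (q K + matchedIn G K.supp - assignedIn G K.supp) / 2 ≤ _
  omega

/-- Twice the componentwise search number is at most the excess. -/
theorem two_mul_searches_le_excess (G : SimpleGraph (Fin n)) : 2 * searches G ≤ excess G := by
  have h1 := searches_le_searchNum G
  have h2 := searchNum_le_excess G
  omega

/-- The componentwise search number is at most `|S| - |M|` for every vertex cover `S` and every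
matching `M`. -/
theorem searches_le_cover {G : SimpleGraph (Fin n)} {S : Set (Fin n)} {M : G.Subgraph}
    (hS : G.IsVertexCover S) (hM : M.IsMatching) :
    searches G ≤ S.ncard - M.edgeSet.ncard :=
  (searches_le_searchNum G).trans (searchNum_le_cover hS hM)

end comp

end Vale.Agent.P305
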