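import Vale.Agent.P305.H794.Stage

/-! Maximum matching in time governed by the excess. -/

set_option autoImplicit false
set_option linter.all false

namespace Vale.Agent.P305

open Function (update)
open L1

variable {R : List ℕ → (ℕ → ℕ) → ℕ → Prop} {cap : ℕ}

/-! ### Half covers on `Fin n` and on `ℕ` -/

/-- Extension by zero. -/
def extC {n : ℕ} (y : Fin n → ℕ) (v : ℕ) : ℕ := if h : v < n then y ⟨v, h⟩ else 0

theorem extC_hc {n : ℕ} {G : SimpleGraph (Fin n)} {y : Fin n → ℕ} (hy : IsHalfCover G y) :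
    HC (natAdj G) (extC y) := by
  rintro u v ⟨hu, hv, h⟩
  unfold extC
  rw [dif_pos hu, dif_pos hv]
  exact hy _ _ h

theorem extC_sum {n : ℕ} (y : Fin n → ℕ) : ∑ v ∈ Finset.range n, extC y v = ∑ v, y v := by
  rw [Finset.sum_range]
  apply Finset.sum_congr rfl
  intro v _
  unfold extC
  rw [dif_pos v.2]

theorem resC_hc {n : ℕ} {G : SimpleGraph (Fin n)} {y : ℕ → ℕ} (hy : HC (natAdj G) y) :
    IsHalfCover G (fun v => y v) := fun u v h => hy u v ⟨u.2, v.2, h⟩

theorem resC_sum {n : ℕ} (y : ℕ → ℕ) : ∑ v : Fin n, y v = ∑ v ∈ Finset.range n, y v :=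
  (Finset.sum_range _).symm

/-! ### Matching numbers -/

theorem matching_le {n : ℕ} {G : SimpleGraph (Fin n)} {M : G.Subgraph} (hM : M.IsMatching) :
    2 * M.edgeSet.ncard ≤ n := by
  have := mateOf_card hM
  omega

theorem matchNum_bdd {n : ℕ} (G : SimpleGraph (Fin n)) :
    BddAbove {k | ∃ M : G.Subgraph, M.IsMatching ∧ M.edgeSet.ncard = k} :=
  ⟨n, fun _ ⟨_, hM, e⟩ => by have := matching_le hM; omega⟩

theorem le_matchNum {n : ℕ} {G : SimpleGraph (Fin n)} {M : G.Subgraph} (hM : M.IsMatching) :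
    M.edgeSet.ncard ≤ matchNum G := le_csSup (matchNum_bdd G) ⟨M, hM, rfl⟩

theorem exists_matchNum {n : ℕ} (G : SimpleGraph (Fin n)) :
    ∃ M : G.Subgraph, M.IsMatching ∧ M.edgeSet.ncard = matchNum G := by
  apply Nat.sSup_mem (s := {k | ∃ M : G.Subgraph, M.IsMatching ∧ M.edgeSet.ncard = k})
  · exact ⟨_, ⊥, by intro v hv; exact absurd hv (by simp), rfl⟩
  · exact matchNum_bdd G

/-- Exposed vertices and the matching number. -/
theorem exposed_ge {n : ℕ} {G : SimpleGraph (Fin n)} {m : ℕ → ℕ} (hm : Mat (natAdj G) m) :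
    n ≤ (exposed n m).card + 2 * matchNum G := by
  have h1 := subOf_card hm
  have h2 := le_matchNum (subOf_matching hm)
  omega

/-- A half cover outweighs every matching. -/
theorem two_matching_le {n : ℕ} {G : SimpleGraph (Fin n)} {M : G.Subgraph} (hM : M.IsMatching)
    {y : Fin n → ℕ} (hy : IsHalfCover G y) : 2 * M.edgeSet.ncard ≤ ∑ v, y v := by
  classical
  have hm := mateOf_mat hM
  have hG := natAdj_gr G
  have hc := mateOf_card hM
  set m := mateOf M with hmm
  -- the covered vertices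
  set W := (Finset.range n).filter (fun v => ¬ m v = v) with hW
  have c1 := Finset.card_filter_add_card_filter_not (s := Finset.range n) (fun v => m v = v)
  rw [Finset.card_range] at c1
  have c2 : (exposed n m).card + W.card = n := c1
  have hWc : W.card = 2 * M.edgeSet.ncard := by omega
  have h1 : 2 * W.card ≤ ∑ v ∈ W, (extC y v + extC y (m v)) := by
    rw [mul_comm, ← smul_eq_mul, ← Finset.sum_const]
    apply Finset.sum_le_sum
    intro v hv
    rw [hW, Finset.mem_filter] at hv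
    exact extC_hc hy _ _ (hm.adj v hv.2)
  have h2 : ∑ v ∈ W, extC y (m v) = ∑ v ∈ W, extC y v := by
    apply Finset.sum_nbij' m m
    · intro v hv
      rw [hW, Finset.mem_filter, Finset.mem_range] at hv ⊢
      refine ⟨hm.lt hG hv.1, fun e => hv.2 ?_⟩
      have := congrArg m e
      rwa [hm.inv, hm.inv] at this
    · intro v hv
      rw [hW, Finset.mem_filter, Finset.mem_range] at hv ⊢
      refine ⟨hm.lt hG hv.1, fun e => hv.2 ?_⟩
      have := congrArg m e
      rwa [hm.inv, hm.inv] at this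
    · intro v _; exact hm.inv v
    · intro v _; exact hm.inv v
    · intro v _; rfl
  have h3 : ∑ v ∈ W, extC y v ≤ ∑ v, y v := by
    rw [← extC_sum y]
    exact Finset.sum_le_sum_of_subset (Finset.filter_subset _ _)
  rw [Finset.sum_add_distrib, h2] at h1
  omega

/-! ### Odd packings inside a set -/

theorem oddPackingOn_bdd {n : ℕ} (G : SimpleGraph (Fin n)) (U : Set (Fin n)) :
    BddAbove {k | ∃ S : Fin k → Set (Fin n), IsOddPacking G k S ∧ ∀ i, S i ⊆ U} :=
  ⟨n, fun _ ⟨_, hS, _⟩ => hS.le⟩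

theorem le_oddPackingOn {n : ℕ} {G : SimpleGraph (Fin n)} {U : Set (Fin n)} {k : ℕ}
    {S : Fin k → Set (Fin n)} (h : IsOddPacking G k S) (hU : ∀ i, S i ⊆ U) :
    k ≤ oddPackingOn G U := le_csSup (oddPackingOn_bdd G U) ⟨S, h, hU⟩

theorem oddPackingOn_le {n : ℕ} (G : SimpleGraph (Fin n)) (U : Set (Fin n)) :
    oddPackingOn G U ≤ oddPacking G := by
  unfold oddPackingOn
  apply csSup_le
  · exact ⟨0, fun i => i.elim0, ⟨fun i => i.elim0, fun i => i.elim0⟩, fun i => i.elim0⟩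
  · rintro _ ⟨_, hS, _⟩
    exact le_oddPacking hS

theorem oddPackingOn_empty {n : ℕ} (G : SimpleGraph (Fin n)) {U : Set (Fin n)}
    (hU : ∀ v, v ∉ U) : oddPackingOn G U = 0 := by
  have : oddPackingOn G U ≤ 0 := by
    unfold oddPackingOn
    apply csSup_le
    · exact ⟨0, fun i => i.elim0, ⟨fun i => i.elim0, fun i => i.elim0⟩, fun i => i.elim0⟩
    rintro k ⟨S, hS, hSU⟩
    by_contra hk
    obtain ⟨v, hv⟩ := hS.nonempty ⟨0, by omega⟩
    exact hU v (hSU _ hv)
  omega

/-! ### Optimal half covers -/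

theorem exists_minHalfCover {n : ℕ} (G : SimpleGraph (Fin n)) : ∃ y, IsMinHalfCover G y := by
  classical
  have hex : ∃ k, ∃ y, IsHalfCover G y ∧ ∑ v, y v = k :=
    ⟨_, fun _ => 2, fun u v _ => (by show 2 ≤ 2 + 2; omega), rfl⟩
  obtain ⟨y, hy, hs⟩ := Nat.find_spec hex
  exact ⟨y, hy, fun z hz => by rw [hs]; exact Nat.find_min' hex ⟨z, hz, rfl⟩⟩

theorem excess_mem {n : ℕ} (G : SimpleGraph (Fin n)) : ∃ y, IsMinHalfCover G y ∧
    excess G = oddPackingOn G {v | y v = 1} - (∑ v, y v - 2 * matchNum G) := by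
  obtain ⟨y, hy⟩ := exists_minHalfCover G
  exact Nat.sInf_mem (s := {k | ∃ y, IsMinHalfCover G y ∧
    k = oddPackingOn G {v | y v = 1} - (∑ v, y v - 2 * matchNum G)}) ⟨_, y, hy, rfl⟩

theorem excess_le_of {n : ℕ} {G : SimpleGraph (Fin n)} {y : Fin n → ℕ}
    (hy : IsMinHalfCover G y) :
    excess G ≤ oddPackingOn G {v | y v = 1} - (∑ v, y v - 2 * matchNum G) :=
  Nat.sInf_le ⟨y, hy, rfl⟩

/-- The excess is at most the packing number. -/
theorem excess_le_oddPacking {n : ℕ} (G : SimpleGraph (Fin n)) : excess G ≤ oddPacking G := by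
  obtain ⟨y, hy⟩ := exists_minHalfCover G
  exact (excess_le_of hy).trans ((Nat.sub_le _ _).trans (oddPackingOn_le G _))

theorem excess_le {n : ℕ} (G : SimpleGraph (Fin n)) : excess G ≤ n :=
  (excess_le_oddPacking G).trans (oddPacking_le G)

/-- If some optimal half cover is integral then the excess vanishes. -/
theorem excess_eq_zero {n : ℕ} {G : SimpleGraph (Fin n)} {y : Fin n → ℕ}
    (hy : IsMinHalfCover G y) (h1 : ∀ v, y v ≠ 1) : excess G = 0 := by
  have := excess_le_of hy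
  rw [oddPackingOn_empty G (U := {v | y v = 1}) (fun v hv => h1 v hv)] at this
  omega

/-- König-Egerváry graphs have excess zero. -/
theorem excess_konig {n : ℕ} {G : SimpleGraph (Fin n)} {S : Set (Fin n)} {M : G.Subgraph}
    (hM : M.IsMatching) (hS : ∀ u v, G.Adj u v → u ∈ S ∨ v ∈ S)
    (h : S.ncard = M.edgeSet.ncard) : excess G = 0 := by
  classical
  have hsum : ∑ v, (if v ∈ S then 2 else 0) = 2 * S.ncard := by
    rw [Finset.sum_ite, Finset.sum_const_zero, add_zero, Finset.sum_const, smul_eq_mul, mul_comm,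
      Set.ncard_eq_toFinset_card']
    congr 2
    ext v
    simp
  refine excess_eq_zero (y := fun v => if v ∈ S then 2 else 0) ⟨?_, ?_⟩ ?_
  · intro u v huv
    beta_reduce
    rcases hS u v huv with h | h
    · rw [if_pos h]; omega
    · rw [if_pos h]; omega
  · intro z hz
    rw [hsum, h]
    exact two_matching_le hM hz
  · intro v
    beta_reduce
    split_ifs <;> omega

/-! ### The gap after stage 1 -/

theorem S1Res2.gap {n : ℕ} {G : SimpleGraph (Fin n)} {m C : ℕ → ℕ} {F : Finset ℕ} {N : ℕ}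
    (h : S1Res2 n (natAdj G) m C F N) :
    ∀ m', Mat (natAdj G) m' → (exposed n m).card ≤ (exposed n m').card + excess G := by
  classical
  intro m' hm'
  obtain ⟨y, hy, he⟩ := excess_mem G
  -- the weight of `y`
  obtain ⟨y0, hy0, hs0⟩ := h.cov
  have h1 := h.dual _ (extC_hc hy.1)
  have h2 := hy.2 _ (resC_hc hy0)
  rw [resC_sum] at h2
  rw [extC_sum] at h1
  have hsum : ∑ v, y v + N = n := by omega
  -- the packing
  have hF : F.card ≤ oddPackingOn G {v | y v = 1} := by
    obtain ⟨e⟩ : Nonempty (Fin F.card ≃ F) := ⟨F.equivFin.symm⟩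
    refine le_oddPackingOn (S := fun i => {v : Fin n | C v = (e i : ℕ) ∧ y v = 1}) ⟨?_, ?_⟩
      (fun i v hv => hv.2)
    · intro i hb
      apply h.odd (e i) (e i).2 _ (extC_hc hy.1) (by rw [extC_sum]; exact hsum)
      obtain ⟨col⟩ := hb
      refine ⟨fun v => if hv : ∃ hn : v < n, C v = (e i : ℕ) ∧ y ⟨v, hn⟩ = 1 then
        decide (col ⟨⟨v, hv.choose⟩, hv.choose_spec⟩ = 0) else false, ?_⟩
      intro u v hu hv huv
      obtain ⟨hun, hvn, hadj⟩ := huv
      have hu' : ∃ hn : u < n, C u = (e i : ℕ) ∧ y ⟨u, hn⟩ = 1 := by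
        refine ⟨hun, hu.2.1, ?_⟩
        have := hu.2.2
        unfold extC at this
        rwa [dif_pos hun] at this
      have hv' : ∃ hn : v < n, C v = (e i : ℕ) ∧ y ⟨v, hn⟩ = 1 := by
        refine ⟨hvn, hv.2.1, ?_⟩
        have := hv.2.2
        unfold extC at this
        rwa [dif_pos hvn] at this
      beta_reduce
      rw [dif_pos hu', dif_pos hv']
      have hne := col.valid (v := ⟨⟨u, hu'.choose⟩, hu'.choose_spec⟩)
        (w := ⟨⟨v, hv'.choose⟩, hv'.choose_spec⟩) (by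
        simpa [SimpleGraph.comap_adj] using hadj)
      intro heq
      apply hne
      rw [decide_eq_decide] at heq
      generalize col ⟨⟨u, hu'.choose⟩, hu'.choose_spec⟩ = a at *
      generalize col ⟨⟨v, hv'.choose⟩, hv'.choose_spec⟩ = b at *
      revert a b
      decide
    · intro i j hij u hu v hv
      have hu' : C u = (e i : ℕ) := hu.1
      have hv' : C v = (e j : ℕ) := hv.1
      have hne : (e i : ℕ) ≠ e j := fun h => hij (e.injective (Subtype.ext h))
      refine ⟨?_, ?_⟩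
      · rintro rfl
        exact hne (hu'.symm.trans hv')
      · intro hadj
        have := h.apart u v ⟨u.2, v.2, by simpa using hadj⟩ (by rw [hu']; exact (e i).2)
          (by rw [hv']; exact (e j).2)
        exact hne (hu'.symm.trans (this.trans hv'))
  have h3 := h.card
  have h4 := exposed_ge hm'
  have h5 := h.low m' hm'
  obtain ⟨M0, hM0, hM0c⟩ := exists_matchNum G
  have h6 := two_matching_le hM0 hy.1
  rw [hM0c] at h6
  omega

theorem exc_run {n : ℕ} (G : SimpleGraph (Fin n)) (L : AdjLists G)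
    {R : List ℕ → (ℕ → ℕ) → ℕ → Prop} {cap τ : ℕ}
    (hcap : 2 * n + 4 * G.edgeSet.ncard + 2 ≤ cap)
    (hR : ∀ (n' : ℕ) (H : SimpleGraph (Fin n')) (L' : AdjLists H), H.IsBipartite →
      (n' = 2 * n ∧ H.edgeSet.ncard ≤ 2 * G.edgeSet.ncard) →
        ∃ (out : ℕ → ℕ) (t : ℕ) (M : H.Subgraph), R L'.encode out t ∧ t ≤ τ ∧
          IsMaximumMatching H M ∧ Represents out M) :
    ∃ (t : ℕ) (s : St) (M : G.Subgraph), Ex R cap oddC (St.init L.encode) t s ∧
      t ≤ 1100 * ((excess G + 1) * ((Nat.log 2 n + 1) * (n + G.edgeSet.ncard + 1))) +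
        1 * τ ∧ IsMaximumMatching G M ∧ Represents (s.a 3) M := by
  set m := G.edgeSet.ncard with hm
  set Λ := Nat.log 2 n + 1 with hΛ
  have hG := natAdj_gr G
  have hinit : ∀ j i, (St.init L.encode).a j i = if j = 0 then L.encode.getD i 0 else 0 :=
    fun j i => rfl
  have hoffn : L.encode.getD (n + 1) 0 = 2 * m := by rw [L.encode_off le_rfl, L.upTo_length]
  obtain ⟨s1, t1, e1, ht1, r10, r11, o1, a1, j1⟩ := unpack_spec (R := R) (cap := cap)
    (St.init L.encode) n (2 * m) (by rw [hinit, if_pos rfl, L.encode_zero])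
    (by rw [hinit, if_pos rfl, hoffn])
  have hn : s1.a 4 n = 2 * m := by rw [o1 n le_rfl, hinit, if_pos rfl, hoffn]
  have hC : CSR n (natAdj G) (s1.a 4) (s1.a 5) := by
    refine csr_of_encode L (fun i hi => ?_) (fun p hp => ?_)
    · rw [o1 i hi, hinit, if_pos rfl]
    · rw [a1 p (by omega), hinit, if_pos rfl]
  have q1 : s1.a 1 = fun _ => 0 := by
    rw [j1 1 (by decide) (by decide)]
    funext i
    rw [hinit, if_neg (by decide)]
  obtain ⟨s2, t2, m1, C, F, N, e2, ht2, hS, h40, r20, r21, h45⟩ := stage1_spec2 (R := R) (cap := cap)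
    (n := n) (A := natAdj G) s1 (τ := τ)
    (by
      intro H L' hH hlen
      refine hR _ H L' hH ⟨rfl, ?_⟩
      rw [hn, L'.upTo_length] at hlen
      omega)
    hG hC r10 r11 (by rw [q1]; intro i _; rfl) (by rw [q1]; simp [encLen]; (clear * - r10 hn; omega))
    (by rw [hn]; omega)
  obtain ⟨s3, t3, f, e3, ht3, hmax, f40, r30, r31⟩ := augLoop_spec (R := R) (cap := cap)
    (g := excess G) hG s2 (by rw [h45 4 (by decide), h45 5 (by decide)]; exact hC) r20 r21 hS.mat
    hS.gap h40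
  obtain ⟨s4, t4, e4, ht4, a43⟩ := cOut_spec (R := R) (cap := cap) s3 r30
  obtain ⟨M, hM, hrep⟩ := maximum_of_isMax (f := s4.a 3) hmax (by
    intro v hv
    rw [a43 v hv, f40 v hv])
  refine ⟨_, s4, M, .seq e1 (.seq e2 (.seq e3 e4)), ?_, hM, hrep⟩
  -- the time
  rw [h45 4 (by decide), hn, ← hΛ] at ht3
  rw [hn] at ht2
  set X := Λ * (n + m + 1) with hX
  set k := excess G with hk
  have x1 : n + m + 1 ≤ X := Nat.le_mul_of_pos_left _ (by omega)
  have x2 : X ≤ (k + 1) * X := Nat.le_mul_of_pos_left _ (by omega)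
  have x3 : (k + 1) * (300 * (Λ * (n + 2 * m + 1))) ≤ 600 * ((k + 1) * X) := by
    calc (k + 1) * (300 * (Λ * (n + 2 * m + 1))) ≤
        (k + 1) * (300 * (Λ * (2 * (n + m + 1)))) := by
          apply Nat.mul_le_mul (by omega)
          apply Nat.mul_le_mul_left
          apply Nat.mul_le_mul_left
          (clear * - r10 r20 r30; omega)
      _ = 600 * ((k + 1) * X) := by rw [hX]; ring
  rw [one_mul]
  omega


/-- Maximum matching in time governed by the excess. -/
theorem excess_reduction (T : ℕ → ℕ → ℕ)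
    (hT : ∀ n n' m m', n ≤ n' → m ≤ m' → T n m ≤ T n' m')
    (hP : ∃ P, Solves P (fun _ G => G.IsBipartite) (fun n G => T n G.edgeSet.ncard)) :
    ∃ P C, Solves P (fun _ _ => True) (fun n G =>
      C * (T (2 * n) (2 * G.edgeSet.ncard) +
        (excess G + 1) * ((Nat.log 2 n + 1) * (n + G.edgeSet.ncard + 1)))) := by
  obtain ⟨P, hP⟩ := hP
  obtain ⟨k0, hk0⟩ : ∃ k0, 1100 ≤ 2 ^ k0 := ⟨11, by norm_num⟩
  have hlog : ∀ n m, Nat.log 2 n + 1 ≤ n + m + 2 := by
    intro n m
    have := Nat.log_le_self 2 n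
    omega
  have hpow : ∀ N, 2 ≤ N → 1100 * N ^ 3 ≤ N ^ (k0 + 3) := by
    intro N hN
    rw [pow_add]
    apply Nat.mul_le_mul_right
    exact hk0.trans (Nat.pow_le_pow_left hN k0)
  have hA : ∀ (n : ℕ) (G : SimpleGraph (Fin n)),
      1100 * ((excess G + 1) * ((Nat.log 2 n + 1) * (n + G.edgeSet.ncard + 1))) ≤
        (n + G.edgeSet.ncard + 2) ^ (k0 + 3) := by
    intro n G
    refine le_trans (Nat.mul_le_mul_left _ ?_) (hpow _ (by omega))
    have h1 := excess_le G
    have h2 := hlog n G.edgeSet.ncard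
    obtain ⟨N, hN⟩ : ∃ N, N = n + G.edgeSet.ncard + 2 := ⟨_, rfl⟩
    rw [← hN] at h2 ⊢
    have h3 : (excess G + 1) * ((Nat.log 2 n + 1) * (n + G.edgeSet.ncard + 1)) ≤
        N * (N * N) := Nat.mul_le_mul (by omega) (Nat.mul_le_mul h2 (by omega))
    have h4 : N * (N * N) = N ^ 3 := by ring
    omega
  have hC : ∀ (n : ℕ) (G : SimpleGraph (Fin n)),
      2 * n + 4 * G.edgeSet.ncard + 2 ≤ (n + G.edgeSet.ncard + 2) ^ (k0 + 3) := by
    intro n G
    refine le_trans ?_ (hpow _ (by omega))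
    obtain ⟨N, hN⟩ : ∃ N, N = n + G.edgeSet.ncard + 2 := ⟨_, rfl⟩
    rw [← hN]
    have h4 : N * 1 ≤ N * (N * N) :=
      Nat.mul_le_mul_left _ (Nat.mul_pos (by omega) (by omega))
    have h5 : N * (N * N) = N ^ 3 := by ring
    omega
  have hsz : ∀ (n : ℕ) (G : SimpleGraph (Fin n)), True → ∀ (n' : ℕ) (H : SimpleGraph (Fin n')),
      H.IsBipartite → (n' = 2 * n ∧ H.edgeSet.ncard ≤ 2 * G.edgeSet.ncard) →
      n' + H.edgeSet.ncard + 2 ≤ (n + G.edgeSet.ncard + 2) ^ 2 ∧
        T n' H.edgeSet.ncard ≤ T (2 * n) (2 * G.edgeSet.ncard) := by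
    rintro n G - n' H - ⟨h1, h2⟩
    refine ⟨?_, hT _ _ _ _ h1.le h2⟩
    obtain ⟨N, hN⟩ : ∃ N, N = n + G.edgeSet.ncard + 2 := ⟨_, rfl⟩
    rw [← hN, pow_two]
    have h4 : 2 * N ≤ N * N := Nat.mul_le_mul_right _ (by omega)
    omega
  obtain ⟨P', C, k, hk⟩ := solves_of_L1 (CG := fun _ _ => True) hP (K := 64) (by decide)
    oddC (cst := 4) oddC_ok (k0 + 3) 2
    (fun n G n' H => n' = 2 * n ∧ H.edgeSet.ncard ≤ 2 * G.edgeSet.ncard)
    (fun n G => T (2 * n) (2 * G.edgeSet.ncard))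
    (fun n G => 1100 * ((excess G + 1) * ((Nat.log 2 n + 1) * (n + G.edgeSet.ncard + 1))))
    (fun _ _ => 1) hsz (fun n G _ => hA n G)
    (fun n G _ L R τ hR => exc_run G L (hC n G) hR)
  refine ⟨P', 1101 * C, k, fun n G hG L => ?_⟩
  obtain ⟨t, s, M, e, ht, hM, hr⟩ := hk n G hG L
  refine ⟨t, s, M, e, ht.trans ?_, hM, hr⟩
  beta_reduce
  set Λ := Nat.log 2 n + 1 with hΛ
  set m := G.edgeSet.ncard with hm
  set Y := T (2 * n) (2 * m) with hY
  set X := (excess G + 1) * (Λ * (n + m + 1)) with hX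
  have y1 : n + m + 1 ≤ X :=
    le_trans (Nat.le_mul_of_pos_left _ (by omega)) (Nat.le_mul_of_pos_left _ (by omega))
  calc C * (1100 * X + 1 * Y + n + m + 1) ≤ C * (1101 * (Y + X)) :=
        Nat.mul_le_mul_left _ (by omega)
    _ = 1101 * C * (Y + X) := by ring

/-- Almost-linear time when the excess is subpolynomial. -/
theorem excess_almostLinear (hB : AlmostLinear fun _ G => G.IsBipartite) (κ : ℕ → ℕ)
    (hκ : ∀ ε : ℝ, 0 < ε → ∃ c : ℝ, ∀ N : ℕ, (κ N : ℝ) ≤ c * ((N : ℝ) + 1) ^ ε) :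
    AlmostLinear fun n G => excess G ≤ κ (n + G.edgeSet.ncard) := by
  obtain ⟨P, T, hP, hT⟩ := hB
  set Tb : ℕ → ℕ := fun N => (Finset.range (N + 1)).sup T with hTb
  have hle : ∀ N, T N ≤ Tb N := fun N =>
    Finset.le_sup (f := T) (Finset.mem_range.2 (Nat.lt_succ_self N))
  have hmono : ∀ N N', N ≤ N' → Tb N ≤ Tb N' := by
    intro N N' hN
    apply Finset.sup_mono
    intro x hx
    rw [Finset.mem_range] at hx ⊢
    omega
  have hTb' : ∀ ε : ℝ, 0 < ε → ∃ c : ℝ, 0 ≤ c ∧ ∀ N : ℕ,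
      (Tb N : ℝ) ≤ c * ((N : ℝ) + 1) ^ (1 + ε) := by
    intro ε hε
    obtain ⟨c, hc⟩ := hT ε hε
    have hc0 : 0 ≤ c := by
      have := hc 0
      simp only [Nat.cast_zero, zero_add, Real.one_rpow, mul_one] at this
      exact (Nat.cast_nonneg _).trans this
    refine ⟨c, hc0, fun N => ?_⟩
    obtain ⟨k, hk, hk'⟩ : ∃ k ∈ Finset.range (N + 1), (Finset.range (N + 1)).sup T = T k :=
      Finset.exists_mem_eq_sup _ ⟨0, by simp only [Finset.mem_range, lt_add_iff_pos_left, Order.lt_add_one_iff, zero_le]⟩ T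
    show (((Finset.range (N + 1)).sup T : ℕ) : ℝ) ≤ _
    rw [hk']
    refine (hc k).trans (mul_le_mul_of_nonneg_left ?_ hc0)
    apply Real.rpow_le_rpow (by (clear * -; positivity)) _ (by (clear * - hε; linarith))
    rw [Finset.mem_range] at hk
    have : (k : ℝ) ≤ N := by exact_mod_cast (by omega : k ≤ N)
    linarith only [this]
  obtain ⟨P', C, hP'⟩ := excess_reduction (fun n m => Tb (n + m))
    (fun n n' m m' h1 h2 => hmono _ _ (by omega))
    ⟨P, hP.mono (fun _ _ h => h) fun n G _ => hle _⟩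
  refine ⟨P', fun N => C * (Tb (2 * N) + (κ N + 1) * ((Nat.log 2 N + 1) * (N + 1))),
    hP'.mono (fun _ _ _ => trivial) ?_, ?_⟩
  · intro n G hG
    beta_reduce
    have h1 : Nat.log 2 n ≤ Nat.log 2 (n + G.edgeSet.ncard) := Nat.log_mono_right (by omega)
    apply Nat.mul_le_mul_left
    apply Nat.add_le_add
    · exact hmono _ _ (by omega)
    · exact Nat.mul_le_mul (by omega) (Nat.mul_le_mul (by omega) le_rfl)
  · intro ε hε
    obtain ⟨c1, hc1, h1⟩ := nlog_bound (δ := ε / 2) (by linarith only [hε])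
    obtain ⟨c2, hc2, h2⟩ := hTb' ε hε
    obtain ⟨c3, h3⟩ := hκ (ε / 2) (by linarith)
    have hc3 : 0 ≤ c3 := by
      have := h3 0
      simp only [Nat.cast_zero, zero_add, Real.one_rpow, mul_one] at this
      exact (Nat.cast_nonneg _).trans this
    refine ⟨C * (c2 * 2 ^ (1 + ε) + (c3 + 1) * c1), fun N => ?_⟩
    have hN : (0 : ℝ) ≤ N := Nat.cast_nonneg N
    have hN1 : (0 : ℝ) < (N : ℝ) + 1 := by linarith
    set x : ℝ := (N : ℝ) + 1 with hx
    have g1 := h1 N
    have g3 := h3 N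
    have g2 : (Tb (2 * N) : ℝ) ≤ c2 * 2 ^ (1 + ε) * x ^ (1 + ε) := by
      refine (h2 (2 * N)).trans ?_
      rw [mul_assoc, ← Real.mul_rpow (by norm_num) hN1.le]
      apply mul_le_mul_of_nonneg_left _ hc2
      apply Real.rpow_le_rpow (by (clear * -; positivity)) _ (by linarith only [hε])
      push_cast
      rw [hx]
      linarith only []
    have p1 : (0 : ℝ) ≤ x ^ (ε / 2) := Real.rpow_nonneg hN1.le _
    have p3 : (1 : ℝ) ≤ x ^ (ε / 2) := Real.one_le_rpow (by linarith) (by linarith only [hε])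
    have g4 : (κ N : ℝ) + 1 ≤ (c3 + 1) * x ^ (ε / 2) := by
      rw [add_mul, one_mul]; linarith only [g3, p3]
    have e1 : x ^ (ε / 2) * (x ^ (ε / 2) * x) = x ^ (1 + ε) := by
      rw [← mul_assoc, ← Real.rpow_add hN1, ← Real.rpow_add_one hN1.ne']
      congr 1
      ring
    push_cast
    rw [mul_assoc]
    apply mul_le_mul_of_nonneg_left _ (Nat.cast_nonneg _)
    have q2 : ((κ N : ℝ) + 1) * (((Nat.log 2 N : ℝ) + 1) * x) ≤
        (c3 + 1) * c1 * x ^ (1 + ε) := by
      calc ((κ N : ℝ) + 1) * (((Nat.log 2 N : ℝ) + 1) * x) ≤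
          ((c3 + 1) * x ^ (ε / 2)) * ((c1 * x ^ (ε / 2)) * x) := by
            apply mul_le_mul g4 _ (by (clear * -; positivity)) (by (clear * - hc3; positivity))
            exact mul_le_mul_of_nonneg_right g1 hN1.le
        _ = (c3 + 1) * c1 * (x ^ (ε / 2) * (x ^ (ε / 2) * x)) := by ring
        _ = _ := by rw [e1]
    rw [add_mul (c2 * 2 ^ (1 + ε))]
    exact add_le_add g2 q2


/-- König-Egerváry graphs: some vertex cover has as many vertices as some matching has edges. -/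
theorem konig_reduction (T : ℕ → ℕ → ℕ)
    (hT : ∀ n n' m m', n ≤ n' → m ≤ m' → T n m ≤ T n' m')
    (hP : ∃ P, Solves P (fun _ G => G.IsBipartite) (fun n G => T n G.edgeSet.ncard)) :
    ∃ P C, Solves P (fun _ G => excess G = 0) (fun n G =>
      C * (T (2 * n) (2 * G.edgeSet.ncard) +
        (Nat.log 2 n + 1) * (n + G.edgeSet.ncard + 1))) := by
  obtain ⟨P, C, h⟩ := excess_reduction T hT hP
  refine ⟨P, C, h.mono (fun _ _ _ => trivial) ?_⟩
  intro n G hG
  beta_reduce
  rw [hG, zero_add, one_mul]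

end Vale.Agent.P305
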