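import Vale.Agent.P305.H794.Excess
import Vale.Agent.P305.KE342

/-! The common form: one bipartite call and `searchNum G + 1` searches. -/

set_option autoImplicit false
set_option linter.all false

namespace Vale.Agent.P305

open Function (update)
open L1

variable {R : List ℕ → (ℕ → ℕ) → ℕ → Prop} {cap : ℕ}

theorem stage1_spec3 {n : ℕ} {A : ℕ → ℕ → Prop} (s : St) {τ : ℕ}
    (hBB : ∀ (H : SimpleGraph (Fin (2 * n))) (L' : AdjLists H), H.IsBipartite →
      (L'.upTo (2 * n)).length ≤ 2 * s.a 4 n →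
      ∃ out t M, R L'.encode out t ∧ t ≤ τ ∧ IsMaximumMatching H M ∧ Represents out M)
    (hG : Gr n A) (hcsr : CSR n A (s.a 4) (s.a 5)) (h0 : s.r 0 = n) (h1 : s.r 1 = 0)
    (hclean : Clean (s.a 1)) (hlen : encLen (s.a 1) ≤ 2 * n + 2 + 2 * s.a 4 n)
    (hcap : 2 * n + 2 + 2 * s.a 4 n ≤ cap) :
    ∃ s' t m C F N, Ex R cap stage1 s t s' ∧ t ≤ τ + 200 * (n + s.a 4 n + 1) ∧
      S1Res2 n A m C F N ∧
      (∀ X : Finset ℕ, X ⊆ Finset.range n → (∀ u v, A u v → u ∈ X ∨ v ∈ X) →
        F.card + n ≤ 2 * X.card + N) ∧ (∀ v < n, s'.a 40 v = m v) ∧ s'.r 0 = n ∧ s'.r 1 = 0 ∧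
      (∀ j ∈ [4, 5], s'.a j = s.a j) := by
  -- double cover
  obtain ⟨s1, t1, e1, ht1, a10, a2n, a20, areg, aarr⟩ := dcC_spec (R := R) (cap := cap) s hG hcsr
    h0 (by omega)
  have a1 : s1.a 1 = s.a 1 := aarr 1 (by decide) (by decide)
  -- packing
  obtain ⟨s2, t2, L', e2, ht2, hL', hcl2, hlen2, hup2, barr, breg⟩ := pack_spec' (R := R)
    (cap := cap) s1 (H := dcG n A) a20 (by rw [a1]; exact hclean) (by rw [a1]; (clear * - hlen hcap; omega))
    (by rw [natAdj_dcG hG]; exact a10)
  rw [a1, a2n] at ht2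
  -- call
  obtain ⟨out, tc, M, hRc, htc, hMM, hrep⟩ := hBB (dcG n A) L' (dcG_bip n A)
    (by rw [hup2, a2n])
  have e3 : Ex R cap .call s2 (tc + L'.encode.length + 1) (callResult s2 L'.encode out) :=
    Ex.call hL' hRc
  obtain ⟨s3, hs3⟩ : ∃ s3, s3 = callResult s2 L'.encode out := ⟨_, rfl⟩
  rw [← hs3] at e3
  have c3r : s3.r = s2.r := by rw [hs3]; rfl
  have c3a : ∀ j, j ≠ 2 → s3.a j = s2.a j := by
    intro j hj
    rw [hs3]
    show update s2.a 2 _ j = _
    rw [Function.update_of_ne hj]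
  have hgmax := isMax_mateOf hMM
  rw [natAdj_dcG hG] at hgmax
  obtain ⟨g, hg⟩ : ∃ g, g = mateOf M := ⟨_, rfl⟩
  rw [← hg] at hgmax
  have c32 : ∀ v < 2 * n, s3.a 2 v = if g v = v then 0 else g v + 1 := by
    intro v hv
    rw [hs3]
    show update s2.a 2 _ 2 v = _
    rw [Function.update_self]
    have hh : L'.encode.headI = 2 * n := rfl
    show (if v < L'.encode.headI then out v else s2.a 2 v) = _
    rw [hh, if_pos hv, hg]
    exact hrep.mateOf hMM.1 hv
  have r21 : s2.r 1 = 0 := by rw [breg 1 (by omega), areg 1 (by decide)]; exact h1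
  have r20 : s2.r 0 = n := by rw [breg 0 (by omega), areg 0 (by decide)]; exact h0
  -- reading
  obtain ⟨s4, t4, e4, ht4, d41, dreg, darr⟩ := readC_spec (R := R) (cap := cap) s3
    (by rw [c3r, breg 20 (by omega)]; exact a20) (by rw [c3r]; exact r21) c32
  have r40 : s4.r 0 = n := by rw [dreg 0 (by decide), c3r]; exact r20
  have r41 : s4.r 1 = 0 := by rw [dreg 1 (by decide), c3r]; exact r21
  have k4 : ∀ j ∈ [4, 5], s4.a j = s.a j := by
    intro j hj
    rw [darr j (by rintro rfl; exact absurd hj (by decide)),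
      c3a j (by rintro rfl; exact absurd hj (by decide)),
      barr j (by rintro rfl; exact absurd hj (by decide)),
      aarr j (by rintro rfl; exact absurd hj (by decide))
        (by rintro rfl; exact absurd hj (by decide))]
  have hA := hgmax.1.toPI hG
  -- initialisation
  obtain ⟨s5, t5, e5, ht5, f42, f43, f45, f46, freg, farr⟩ := iniC_spec (R := R) (cap := cap) s4
    r40 r41
  -- first pass
  obtain ⟨s6, t6, e6, hV6, hN6, ht6, greg, garr⟩ := p1C_spec (R := R) (cap := cap) hA hG.irr s5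
    (by rw [freg 0 (by decide)]; exact r40) (by rw [freg 1 (by decide)]; exact r41)
    (by intro v hv; rw [farr 41 (by decide)]; exact d41 v hv)
    (PV.init (fun v hv => f42 v (by omega)) f45) (fun v hv => f42 v (by omega)) (f45 0 (by omega))
  -- second pass
  obtain ⟨s7, t7, e7, ht7, hV7, hall, hT7, h764, h765, hreg, harr⟩ := p2C_spec (R := R)
    (cap := cap) hA hG.irr s6
    (by rw [greg 0 (by decide), freg 0 (by decide)]; exact r40)
    (by rw [greg 1 (by decide), freg 1 (by decide)]; exact r41)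
    (by intro v hv; rw [garr 41 (by decide), farr 41 (by decide)]; exact d41 v hv)
    hV6 hN6
    (by
      constructor
      · intro c hc
        rw [garr 46 (by decide), garr 45 (by decide), f45 c hc, f46 c hc]
      · intro c hc hO
        rw [garr 45 (by decide), f45 c hc] at hO
        omega)
  have hcyc := hV7.cyc le_rfl hall
  have hP7 : Prg n A (s7.a 43) (s7.a 45) (s7.a 46) (s7.a 47) (s7.a 48) := by
    constructor
    · intro c hc hO
      obtain ⟨x1, _, x2, _⟩ := hT7.d c hc hO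
      exact ⟨x1, x2⟩
    · intro c hc hO
      obtain ⟨_, _, _, x4⟩ := hT7.d c hc hO
      exact Or.inl ⟨by rw [hT7.eq c hc]; exact hO, x4⟩
    · intro c hc hT
      rw [← hT7.eq c hc]; exact hT
  have r70 : s7.r 0 = n := by
    rw [hreg 0 (by decide), greg 0 (by decide), freg 0 (by decide)]; exact r40
  have r71 : s7.r 1 = 0 := by
    rw [hreg 1 (by decide), greg 1 (by decide), freg 1 (by decide)]; exact r41
  have k7 : ∀ j ∈ [4, 5], s7.a j = s.a j := by
    intro j hj
    rw [harr j (fun h => (by decide : ∀ x ∈ p2Arrs, x ∉ [4, 5]) j h hj),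
      garr j (fun h => (by decide : ∀ x ∈ [42, 43, 44], x ∉ [4, 5]) j h hj),
      farr j (fun h => (by decide : ∀ x ∈ [42, 43, 45, 46], x ∉ [4, 5]) j h hj), k4 j hj]
  -- pairing
  obtain ⟨s8, t8, e8, ht8, hP8, hap, ireg, iarr⟩ := prC_spec (R := R) (cap := cap) s7 hG
    (by rw [k7 4 (by decide), k7 5 (by decide)]; exact hcsr) r70 r71 h765 hcyc.le hP7
  rw [k7 4 (by decide)] at ht8
  have hcyc8 : Cyc n g (s8.a 42) (s8.a 43) (s8.a 44) (s8.a 45) := by
    rw [iarr 42 (by decide), iarr 43 (by decide), iarr 44 (by decide), iarr 45 (by decide)]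
    exact hcyc
  -- final pass
  obtain ⟨s9, t9, e9, ht9, l40, lreg, larr⟩ := fmC_spec (R := R) (cap := cap) (n := n) (g := g) s8
    (by rw [ireg 0 (by decide)]; exact r70) (by rw [ireg 64 (by decide)]; exact h764)
    (by rw [ireg 65 (by decide)]; exact h765)
    (by
      intro v hv
      rw [iarr 41 (by decide), harr 41 (by decide), garr 41 (by decide), farr 41 (by decide)]
      exact d41 v hv)
  have hdo := defi_add_outs n g
  refine ⟨s9, _, fm n g (s8.a 42) (s8.a 43) (s8.a 44) (s8.a 45) (s8.a 47) (s8.a 48), s8.a 43,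
    (Finset.range (n + 1)).filter (fun c => s8.a 46 c = 1), (defi n g).card,
    .seq e1 (.seq e2 (.seq e3 (.seq e4 (.seq e5 (.seq e6 (.seq e7 (.seq e8 e9))))))), ?_,
    ⟨?_, ?_, ?_, ?_, ?_, ?_, ?_⟩, ?_, l40, ?_, ?_, ?_⟩
  · have hel : L'.encode.length = 2 * n + 2 + s1.a 10 (2 * n) := by
      rw [L'.encode_length, hup2]
    rw [a2n] at hel
    omega
  · exact hcyc8.mat hA hG hP8
  · exact hcyc8.card hA hP8
  · intro m' hm'
    exact card_out_le hG hgmax hm'
  · obtain ⟨y, hy, hs⟩ := exists_half_cover hG hgmax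
    exact ⟨y, hy, by omega⟩
  · intro y hy
    have := outs_le hA hy
    omega
  · intro c hc y hy he
    rw [Finset.mem_filter, Finset.mem_range] at hc
    have hO := hP8.tO c (by omega) hc.2
    rw [iarr 45 (by decide)] at hO
    obtain ⟨s0, k, hk, w1, w2, w3⟩ := hV7.walk c (by omega) hO
    rw [iarr 43 (by decide)]
    have ht : ∀ i < k, y (wf n g s0 i) + y (wf n g s0 (i + 1)) = 2 := by
      intro i hi
      obtain ⟨q1, q2, q3⟩ := w1 i (by omega)
      have q4 := (hV7.full _ q1 q2 (by rw [q3]; exact hO)).1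
      have q5 : wf n g s0 i ∈ outs n g := by
        rw [outs, Finset.mem_filter, Finset.mem_range]
        exact ⟨q1, q4⟩
      have := tight hA hy (by omega) q5
      rw [wf_succ]
      exact this
    have ho := walk_one (fun i => y (wf n g s0 i)) hk ht (by beta_reduce; rw [w3])
    exact oddSet_of_walk (wf n g s0) hk (fun i hi => ⟨(w1 i hi).1, (w1 i hi).2.2, ho i hi⟩) w2 w3
  · intro u v huv hu hv
    rw [Finset.mem_filter] at hu hv
    exact hap u v huv hu.2 hv.2
  · intro X hX hcov
    exact cover_bound hA (fun c hc hO => by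
      obtain ⟨s0, k, hk, w1, w2, w3⟩ := hV7.walk c hc hO
      exact ⟨s0, k, hk, fun i hi => ⟨(w1 i hi).1, (w1 i hi).2.2⟩, w2, w3⟩)
      (fun v hv hO => (hcyc.full v hv hO).1) hX hcov
      ((Finset.range (n + 1)).filter (fun c => s8.a 46 c = 1)) (by
        intro c hc
        rw [Finset.mem_filter, Finset.mem_range] at hc
        have hO := hP8.tO c (by omega) hc.2
        rw [iarr 45 (by decide)] at hO
        exact ⟨by omega, hO⟩)
  · rw [lreg 0 (by decide), ireg 0 (by decide)]; exact r70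
  · rw [lreg 1 (by decide), ireg 1 (by decide)]; exact r71
  · intro j hj
    rw [larr j (by rintro rfl; exact absurd hj (by decide)),
      iarr j (fun h => (by decide : ∀ x ∈ [46, 47, 48], x ∉ [4, 5]) j h hj), k7 j hj]

end Vale.Agent.P305
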