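import Vale.Agent.P305.Bdl.B2
import Vale.Agent.P305.H794.Defs

/-! Linear programming duality for the double cover: half-integral vertex covers against the
matching of the double cover. -/

set_option autoImplicit false
set_option linter.all false

namespace Vale.Agent.P305

variable {n : ℕ} {A : ℕ → ℕ → Prop} {g : ℕ → ℕ}

/-- Half covers on `ℕ`. -/
def HC (A : ℕ → ℕ → Prop) (y : ℕ → ℕ) : Prop := ∀ u v, A u v → 2 ≤ y u + y v

/-- The vertices without out-arc. -/
def defi (n : ℕ) (g : ℕ → ℕ) : Finset ℕ := (Finset.range n).filter (fun v => g v = v)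

/-- The vertices with out-arc. -/
def outs (n : ℕ) (g : ℕ → ℕ) : Finset ℕ := (Finset.range n).filter (fun v => ¬ g v = v)

theorem defi_add_outs (n : ℕ) (g : ℕ → ℕ) : (defi n g).card + (outs n g).card = n := by
  have c1 := Finset.card_filter_add_card_filter_not (s := Finset.range n) (fun v => g v = v)
  rw [Finset.card_range] at c1
  exact c1

theorem outs_succ (hA : PI n A g) {v : ℕ} (hv : v ∈ outs n g) :
    g v - n < n ∧ g v = n + (g v - n) ∧ A v (g v - n) := by
  rw [outs, Finset.mem_filter, Finset.mem_range] at hv
  rcases hA.out v hv.1 with h | ⟨w, hw, e, e2⟩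
  · exact absurd h hv.2
  · have : g v - n = w := by omega
    rw [this]
    exact ⟨hw, e, e2⟩

theorem outs_inj (hA : PI n A g) {v w : ℕ} (hv : v ∈ outs n g) (hw : w ∈ outs n g)
    (e : g v - n = g w - n) : v = w := by
  obtain ⟨a1, a2, _⟩ := outs_succ hA hv
  obtain ⟨b1, b2, _⟩ := outs_succ hA hw
  rw [outs, Finset.mem_filter, Finset.mem_range] at hv hw
  exact hA.eq_arc hv.1 hw.1 a1 a2 (by omega)

theorem sum_arcs_le (hA : PI n A g) (y : ℕ → ℕ) :
    ∑ v ∈ outs n g, (y v + y (g v - n)) ≤ 2 * ∑ v ∈ Finset.range n, y v := by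
  rw [Finset.sum_add_distrib, two_mul]
  apply Nat.add_le_add
  · exact Finset.sum_le_sum_of_subset (Finset.filter_subset _ _)
  · rw [← Finset.sum_image (s := outs n g) (g := fun v => g v - n) (f := y)
      (fun v hv w hw e => outs_inj hA hv hw e)]
    apply Finset.sum_le_sum_of_subset
    intro x hx
    obtain ⟨v, hv, rfl⟩ := Finset.mem_image.1 hx
    exact Finset.mem_range.2 (outs_succ hA hv).1

/-- Weak duality. -/
theorem outs_le (hA : PI n A g) {y : ℕ → ℕ} (hy : HC A y) :
    (outs n g).card ≤ ∑ v ∈ Finset.range n, y v := by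
  have h1 := sum_arcs_le hA y
  have h2 : 2 * (outs n g).card ≤ ∑ v ∈ outs n g, (y v + y (g v - n)) := by
    rw [mul_comm, ← smul_eq_mul, ← Finset.sum_const]
    exact Finset.sum_le_sum fun v hv => hy _ _ (outs_succ hA hv).2.2
  omega

/-- Complementary slackness. -/
theorem tight (hA : PI n A g) {y : ℕ → ℕ} (hy : HC A y)
    (he : ∑ v ∈ Finset.range n, y v = (outs n g).card) {v : ℕ} (hv : v ∈ outs n g) :
    y v + y (g v - n) = 2 := by
  by_contra hne
  have h1 := sum_arcs_le hA y
  have h3 : 2 < y v + y (g v - n) := by
    have := hy _ _ (outs_succ hA hv).2.2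
    omega
  have h2 : ∑ v ∈ outs n g, 2 < ∑ v ∈ outs n g, (y v + y (g v - n)) :=
    Finset.sum_lt_sum (fun v hv => hy _ _ (outs_succ hA hv).2.2) ⟨v, hv, h3⟩
  rw [Finset.sum_const, smul_eq_mul] at h2
  omega

/-- Strong duality (from König's theorem). -/
theorem exists_half_cover (hG : Gr n A) (hg : IsMax (2 * n) (HD n A) g) :
    ∃ y : ℕ → ℕ, HC A y ∧ ∑ v ∈ Finset.range n, y v ≤ (outs n g).card := by
  classical
  have hA := hg.1.toPI hG
  obtain ⟨S, hS, hcov, hS2⟩ := konig (HD.gr hG) (c := fun x => decide (x < n)) (by
    rintro u v (⟨h1, h2, _⟩ | ⟨h1, h2, _⟩) e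
    · have : ¬ v < n := by omega
      simp [h1, this] at e
    · have : ¬ u < n := by omega
      simp [h2, this] at e) hg
  refine ⟨fun v => (if v ∈ S then 1 else 0) + (if n + v ∈ S then 1 else 0), ?_, ?_⟩
  · intro u v huv
    have hu := hG.lt huv
    have hv := hG.lt' huv
    have h1 := hcov u (n + v) (Or.inl ⟨hu, by omega, by rw [show n + v - n = v by omega]; exact huv⟩)
    have h2 := hcov v (n + u) (Or.inl ⟨hv, by omega, by
      rw [show n + u - n = u by omega]; exact hG.symm huv⟩)
    beta_reduce
    rcases h1 with h1 | h1 <;> rcases h2 with h2 | h2 <;>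
      simp only [h1, h2, if_true] <;> split_ifs <;> omega
  · have e1 : ∑ v ∈ Finset.range n, ((if v ∈ S then 1 else 0) + (if n + v ∈ S then 1 else 0)) =
        S.card := by
      rw [Finset.sum_add_distrib, ← Finset.card_filter, ← Finset.card_filter]
      have e : S = ((Finset.range n).filter (fun v => v ∈ S)) ∪
          ((Finset.range n).filter (fun v => n + v ∈ S)).map (addLeftEmbedding n) := by
        ext x
        simp only [Finset.mem_filter, Finset.mem_range, Finset.mem_union, Finset.mem_map,
          addLeftEmbedding_apply]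
        constructor
        · intro hx
          have hx2 := Finset.mem_range.1 (hS hx)
          by_cases hxn : x < n
          · exact Or.inl ⟨hxn, hx⟩
          · exact Or.inr ⟨x - n, ⟨by omega, by rw [show n + (x - n) = x by omega]; exact hx⟩,
              by omega⟩
        · rintro (⟨_, h⟩ | ⟨y, ⟨_, h⟩, rfl⟩)
          · exact h
          · exact h
      conv_rhs => rw [e]
      rw [Finset.card_union_of_disjoint, Finset.card_map]
      rw [Finset.disjoint_left]
      intro x hx hx'
      simp only [Finset.mem_filter, Finset.mem_range, Finset.mem_map, addLeftEmbedding_apply]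
        at hx hx'
      obtain ⟨y, _, hy⟩ := hx'
      omega
    rw [e1]
    apply Finset.card_le_card_of_injOn (fun x => if x < n then x else g x)
    · intro x hx
      rw [Finset.mem_coe] at hx ⊢
      have hx2 := Finset.mem_range.1 (hS hx)
      have h1 := (hS2 x hx).1
      beta_reduce
      rw [outs, Finset.mem_filter, Finset.mem_range]
      by_cases hxn : x < n
      · rw [if_pos hxn]; exact ⟨hxn, h1⟩
      · rw [if_neg hxn]
        rcases hA.inn (x - n) (by omega) with h | ⟨v, hv, e, _⟩
        · rw [show n + (x - n) = x by omega] at h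
          exact absurd h h1
        · rw [show n + (x - n) = x by omega] at e
          refine ⟨by omega, ?_⟩
          rw [hg.1.inv]
          omega
    · intro x hx x' hx' e
      rw [Finset.mem_coe] at hx hx'
      beta_reduce at e
      have a1 := hS2 x hx
      have a2 := hS2 x' hx'
      by_cases hxn : x < n
      · rw [if_pos hxn] at e
        by_cases hxn' : x' < n
        · rw [if_pos hxn'] at e; exact e
        · rw [if_neg hxn'] at e
          rw [e] at hx
          exact absurd hx a2.2
      · rw [if_neg hxn] at e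
        by_cases hxn' : x' < n
        · rw [if_pos hxn'] at e
          rw [← e] at hx'
          exact absurd hx' a1.2
        · rw [if_neg hxn'] at e
          have := congrArg g e
          rwa [hg.1.inv, hg.1.inv] at this

end Vale.Agent.P305
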